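import Vale.Agent.P247.H734.Reg2
import Vale.Agent.P247.H74.Defs

/-! P247, LSX (helper734): **regularity of `J`-holomorphic maps across a point** (`JREG`). -/

set_option linter.unusedSectionVars false

open MeasureTheory Filter Topology Set Metric
open scoped ContDiff Convolution

namespace Vale.Agent.P247.H734

open Vale.Agent.P247.H74 hiding dbar
open Vale.Agent.P272.CT Vale.Agent.P247.H324 Vale.Agent.P272.K.LIN Vale.Agent.P272.K.R

noncomputable section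

theorem contDiff_gr {n : WithTop ℕ∞} : ContDiff ℝ n gr := by
  unfold gr
  have h1 : ContDiff ℝ n fun v : Fin 4 → ℂ => (fun i => 2 * (v i).re : R4) := by
    refine contDiff_pi.2 fun i => contDiff_const.mul ?_
    exact Complex.reCLM.contDiff.comp (contDiff_apply ℝ ℂ i)
  have h2 : ContDiff ℝ n fun v : Fin 4 → ℂ => (fun i => -2 * (v i).im : R4) := by
    refine contDiff_pi.2 fun i => contDiff_const.mul ?_
    exact Complex.imCLM.contDiff.comp (contDiff_apply ℝ ℂ i)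
  exact ((ContinuousLinearMap.smulRightL ℝ ℂ R4 Complex.reCLM).contDiff.comp h1).add
    ((ContinuousLinearMap.smulRightL ℝ ℂ R4 Complex.imCLM).contDiff.comp h2)

/-- the quadratic right-hand side as a smooth function of the 1-jet -/
def Phi (J : R4 → R4 →L[ℝ] R4) (p : R4 × (ℂ →L[ℝ] R4)) : Fin 4 → ℂ :=
  (1 / 4 : ℂ) • cc (fderiv ℝ J p.1 (p.2 Complex.I) (p.2 1) - fderiv ℝ J p.1 (p.2 1) (p.2 Complex.I))

theorem contDiff_Phi {J : R4 → R4 →L[ℝ] R4} (hJ : ContDiff ℝ ∞ J) : ContDiff ℝ ∞ (Phi J) := by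
  have h1 : ContDiff ℝ ∞ (fderiv ℝ J) := hJ.fderiv_right (by simp)
  have h2 : ContDiff ℝ ∞ fun p : R4 × (ℂ →L[ℝ] R4) => fderiv ℝ J p.1 := h1.comp contDiff_fst
  have h3 : ∀ v : ℂ, ContDiff ℝ ∞ fun p : R4 × (ℂ →L[ℝ] R4) => p.2 v := fun v =>
    contDiff_snd.clm_apply contDiff_const
  have h4 : ContDiff ℝ ∞ fun p : R4 × (ℂ →L[ℝ] R4) =>
      cc (fderiv ℝ J p.1 (p.2 Complex.I) (p.2 1) - fderiv ℝ J p.1 (p.2 1) (p.2 Complex.I)) :=
    cc.contDiff.comp (((h2.clm_apply (h3 Complex.I)).clm_apply (h3 1)).sub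
      ((h2.clm_apply (h3 1)).clm_apply (h3 Complex.I)))
  have h5 : ContDiff ℝ ∞ fun _ : R4 × (ℂ →L[ℝ] R4) => (1 / 4 : ℂ) := contDiff_const
  exact h5.smul h4

theorem hc_pi {Ω : Set ℂ} (hΩ : IsOpen Ω) {a : ℝ} (ha0 : 0 < a) (ha1 : a < 1) {k : ℕ}
    {V : ℂ → Fin 4 → ℂ} (h : ∀ i, HC a Ω k fun z => V z i) : HC a Ω k V := by
  have h1 : HC a Ω k fun z => ∑ i, (ContinuousLinearMap.single ℝ (fun _ : Fin 4 => ℂ) i) (V z i) :=
    HC.sum hΩ _ fun i _ => (h i).clm ha0 ha1.le hΩ _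
  refine h1.congr hΩ fun z _ => ?_
  funext j
  simp [Finset.sum_apply, Pi.single_apply]

theorem hc_VV {J : R4 → R4 →L[ℝ] R4} (hJ : ContDiff ℝ ∞ J) (hJ2 : ∀ x u, J x (J x u) = -u)
    {U : ℂ → R4} {Ω : Set ℂ} (hΩ : IsOpen Ω) (hU : ContDiffOn ℝ 1 U Ω)
    (hJU : ∀ z ∈ Ω, fderiv ℝ U z Complex.I = J (U z) (fderiv ℝ U z 1)) {a : ℝ} (ha0 : 0 < a)
    (ha1 : a < 1) (k : ℕ) : HC a Ω k (VV U) := by
  have hw := wdb_VV hJ hJ2 hΩ hU hJU
  have cV := cont_VV hΩ hU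
  have cF := cont_FF hJ hΩ hU
  have hdU : ∀ z ∈ Ω, DifferentiableAt ℝ U z := fun z hz =>
    (hU.differentiableOn (by simp)).differentiableAt (hΩ.mem_nhds hz)
  induction k with
  | zero => exact lhol_of_wdb hΩ cV cF hw ha0 ha1
  | succ k ih =>
    have h1 : HC a Ω k (fderiv ℝ U) := by
      have h2 : HC a Ω k fun z => gr (VV U z) :=
        HC.comp_smooth ha0 ha1.le hΩ isOpen_univ (fun _ _ => contDiff_gr.contDiffAt) ih
          fun _ _ => mem_univ _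
      exact h2.congr hΩ fun z _ => (fderiv_eq_gr U z).symm
    have h3 : HC a Ω (k + 1) U := ⟨hdU, h1⟩
    have h4 : HC a Ω k fun z => (U z, fderiv ℝ U z) :=
      HC.prodMk ha0 ha1.le hΩ (h3.of_succ ha0 ha1.le hΩ) h1
    have h5 : HC a Ω k (FF J U) := by
      have hP : ContDiff ℝ (k + 1 : ℕ) (Phi J) := (contDiff_Phi hJ).of_le (by exact_mod_cast le_top)
      have h6 : HC a Ω k fun z => Phi J ((fun z => (U z, fderiv ℝ U z)) z) :=
        HC.comp_smooth (F := R4 × (ℂ →L[ℝ] R4)) (G := Fin 4 → ℂ) (V := univ) (φ := Phi J)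
          (f := fun z => (U z, fderiv ℝ U z)) ha0 ha1.le hΩ isOpen_univ
          (fun _ _ => hP.contDiffAt) h4 fun _ _ => mem_univ _
      exact h6.congr hΩ fun z _ => rfl
    refine hc_pi hΩ ha0 ha1 fun i => ?_
    refine hc_of_wdb hΩ ha0 ha1 k (F := fun z => FF J U z i)
      ((continuous_apply i).comp_continuousOn cV) ?_ (WDb.apply hΩ cV cF hw i)
    exact h5.clm ha0 ha1.le hΩ (ContinuousLinearMap.proj i)

/-- `C¹` `J`-holomorphic maps are smooth -/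
theorem smooth_of_jhol {J : R4 → R4 →L[ℝ] R4} (hJ : ContDiff ℝ ∞ J) (hJ2 : ∀ x u, J x (J x u) = -u)
    {U : ℂ → R4} {Ω : Set ℂ} (hΩ : IsOpen Ω) (hU : ContDiffOn ℝ 1 U Ω)
    (hJU : ∀ z ∈ Ω, fderiv ℝ U z Complex.I = J (U z) (fderiv ℝ U z 1)) : ContDiffOn ℝ ∞ U Ω := by
  refine contDiffOn_infty.2 fun k => ?_
  have h1 := hc_VV hJ hJ2 hΩ hU hJU (a := 1/2) (by norm_num) (by norm_num) k
  have h2 : HC (1/2) Ω k fun z => gr (VV U z) :=
    HC.comp_smooth (by norm_num) (by norm_num) hΩ isOpen_univ (fun _ _ => contDiff_gr.contDiffAt) h1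
      fun _ _ => mem_univ _
  have h3 : HC (1/2) Ω k (fderiv ℝ U) := h2.congr hΩ fun z _ => (fderiv_eq_gr U z).symm
  have h4 : HC (1/2) Ω (k + 1) U := ⟨fun z hz =>
    (hU.differentiableOn (by simp)).differentiableAt (hΩ.mem_nhds hz), h3⟩
  exact (h4.contDiffOn (by norm_num) hΩ).of_le (by norm_cast; omega)

/-- **regularity of `J`-holomorphic maps across a point** -/
def JREG_statement : Prop := ∀ (D : Data) (U : ℂ → R4) (r C g : ℝ), 0 < r → 0 < g →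
  ContinuousOn U (ball 0 r) → ContDiffOn ℝ 1 U (ball 0 r \ {0}) →
  (∀ t ∈ ball (0:ℂ) r \ {0}, ‖fderiv ℝ U t‖ ≤ C * ‖t‖ ^ (g - 1) ∧
    fderiv ℝ U t Complex.I = D.J (U t) (fderiv ℝ U t 1)) →
  ContDiffOn ℝ ∞ U (ball 0 r)

theorem JREG : JREG_statement := by
  intro D U r C g hr hg hc h1 h2
  -- reduce to `g ≤ 1`
  have hC : 0 ≤ |C| * (r ^ (g - min g 1)) := by positivity
  have hg' : 0 < min g 1 := lt_min hg one_pos
  have h3 : ∀ t ∈ ball (0:ℂ) r \ {0}, ‖fderiv ℝ U t‖ ≤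
      (|C| * (r ^ (g - min g 1))) * ‖t‖ ^ (min g 1 - 1) := by
    intro t ht
    have ht0 : 0 < ‖t‖ := norm_pos_iff.2 fun h => ht.2 h
    have htr : ‖t‖ < r := mem_ball_zero_iff.1 ht.1
    have e1 : ‖t‖ ^ (g - 1) = ‖t‖ ^ (g - min g 1) * ‖t‖ ^ (min g 1 - 1) := by
      rw [← Real.rpow_add ht0]; congr 1; ring
    have e2 : ‖t‖ ^ (g - min g 1) ≤ r ^ (g - min g 1) :=
      Real.rpow_le_rpow ht0.le htr.le (by linarith [min_le_left g 1])
    calc ‖fderiv ℝ U t‖ ≤ C * ‖t‖ ^ (g - 1) := (h2 t ht).1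
      _ ≤ |C| * (‖t‖ ^ (g - min g 1) * ‖t‖ ^ (min g 1 - 1)) := by
        rw [e1]; gcongr; exact le_abs_self C
      _ ≤ |C| * (r ^ (g - min g 1) * ‖t‖ ^ (min g 1 - 1)) := by gcongr
      _ = _ := by ring
  obtain ⟨h4, h5⟩ := c1_ball D.J_smooth D.J_sq hr hg' (min_le_right _ _) hc h1 h3
    fun t ht => (h2 t ht).2
  exact smooth_of_jhol D.J_smooth D.J_sq isOpen_ball h4 h5

end

end Vale.Agent.P247.H734

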