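import Vale.Agent.P247.H734.Dich
import Vale.Agent.P247.H683.PSAlg

/-! P247, PUI-S (helper734): the dichotomy step in helper683's notation. -/

open MeasureTheory Filter Topology Set Metric
open scoped ContDiff

namespace Vale.Agent.P247.H734

open Vale.Agent.P247.H324 (pb)

noncomputable section

theorem mean_eq {k : ℕ} (y : Fin k → ℂ) : mean y = Vale.Agent.P247.H683.PS.mn y := by
  rw [mean, Vale.Agent.P247.H683.PS.mn, div_eq_inv_mul]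

theorem pvec_eq {k : ℕ} (y : Fin k → ℂ) : pvec y = Vale.Agent.P247.H683.PS.Th y := by
  funext l
  simp only [pvec, Vale.Agent.P247.H683.PS.Th, Vale.Agent.P247.H683.PS.cps,
    Vale.Agent.P247.H683.PS.ex, mean_eq]

/-- **the dichotomy**, from the conclusion of `SH.dich` -/
theorem dich_Th {k : ℕ} {r : ℝ} {Y : ℂ → Fin k → ℂ} (hk : 1 ≤ k) (hr : 0 < r)
    (hc : ∀ F : ℂ → ℂ, Continuous F → ContinuousOn (fun z => ∑ i, F (Y z i)) (pb r))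
    (hs : (∃ r' > 0, ∀ z ∈ pb r', Vale.Agent.P247.H683.PS.Th (Y z) = 0) ∨
      ∃ (m : ℕ) (a : Fin k → ℂ), a ≠ 0 ∧
      Tendsto (fun z => (z ^ m)⁻¹ • Vale.Agent.P247.H683.PS.Th (Y z)) (𝓝[≠] 0) (𝓝 a)) :
    ∃ (q : ℕ) (r' : ℝ), 1 ≤ q ∧ 0 < r' ∧ r' ^ q ≤ r ∧
      ((∀ t ∈ pb r', ∀ i j, Y (t ^ q) i = Y (t ^ q) j) ∨
      ∃ (h : ℂ → ℂ) (M : ℕ) (c : Fin k → ℂ), ContinuousOn h (pb r') ∧ (∃ i j, c i ≠ c j) ∧
        ∀ F : ℂ → ℂ, Continuous F →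
          Tendsto (fun t => ∑ i, F ((Y (t ^ q) i - h t) / t ^ M)) (𝓝[≠] 0) (𝓝 (∑ i, F (c i)))) := by
  refine dich hk hr hc ?_
  simp only [pvec_eq]
  exact hs

end

end Vale.Agent.P247.H734
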