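import Vale.Agent.P247.H734.Sym
import Vale.Agent.P272.CT.Weak
import Vale.Agent.P272.K.H.Uniq
import Mathlib.Analysis.Calculus.ContDiff.Convolution

/-! P247, LSX (helper734): derivatives of the Cauchy transform of functions with compact support. -/

set_option linter.unusedSectionVars false

open MeasureTheory Filter Topology Set Metric
open scoped ContDiff Convolution

namespace Vale.Agent.P247.H734

open Vale.Agent.P272.CT

noncomputable section

/-- the kernel -/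
def ik (w : ℂ) : ℂ := w⁻¹

theorem cauT_eq_conv {K : ℂ → ℂ} (hK : ∀ w, w ∉ ball (0:ℂ) 1 → K w = 0) (z : ℂ) :
    cauT K z = ((Real.pi : ℝ) : ℂ)⁻¹ • (ik ⋆[ContinuousLinearMap.mul ℝ ℂ, volume] K) z := by
  rw [convolution_eq_swap, cauT]
  congr 1
  rw [← integral_indicator measurableSet_ball]
  refine integral_congr_ae (Eventually.of_forall fun w => ?_)
  by_cases hw : w ∈ ball (0:ℂ) 1
  · simp [indicator_of_mem hw, ik]
  · simp [indicator_of_notMem hw, hK w hw]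

theorem cauT_eq_conv' {K : ℂ → ℂ} (hK : ∀ w, w ∉ ball (0:ℂ) 1 → K w = 0) :
    cauT K = ((Real.pi : ℝ) : ℂ)⁻¹ • (ik ⋆[ContinuousLinearMap.mul ℝ ℂ, volume] K) :=
  funext fun z => cauT_eq_conv hK z

theorem loc_ik : LocallyIntegrable ik := locallyIntegrable_inv

theorem hcs_of {K : ℂ → ℂ} (hs : tsupport K ⊆ ball (0:ℂ) 1) : HasCompactSupport K :=
  (isCompact_closedBall (0:ℂ) 1).of_isClosed_subset (isClosed_tsupport K)
    (hs.trans ball_subset_closedBall)

theorem zero_of {K : ℂ → ℂ} (hs : tsupport K ⊆ ball (0:ℂ) 1) (w : ℂ) (hw : w ∉ ball (0:ℂ) 1) :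
    K w = 0 := image_eq_zero_of_notMem_tsupport fun h => hw (hs h)

theorem contDiff_cauT {K : ℂ → ℂ} {n : ℕ∞} (hK : ContDiff ℝ n K)
    (hs : tsupport K ⊆ ball (0:ℂ) 1) : ContDiff ℝ n (cauT K) := by
  rw [cauT_eq_conv' (zero_of hs)]
  exact contDiff_const.smul ((hcs_of hs).contDiff_convolution_right _ loc_ik hK)

theorem fderiv_cauT {K : ℂ → ℂ} (hK : ContDiff ℝ 1 K)
    (hs : tsupport K ⊆ ball (0:ℂ) 1) (z v : ℂ) :
    fderiv ℝ (cauT K) z v = cauT (fun w => fderiv ℝ K w v) z := by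
  have h1 := (hcs_of hs).hasFDerivAt_convolution_right (ContinuousLinearMap.mul ℝ ℂ) loc_ik hK z
  have h0' : ∀ w, w ∉ ball (0:ℂ) 1 → fderiv ℝ K w v = 0 := by
    intro w hw
    have h2 : K =ᶠ[𝓝 w] fun _ => 0 := by
      filter_upwards [(isClosed_tsupport K).isOpen_compl.mem_nhds fun h => hw (hs h)] with y hy
      exact image_eq_zero_of_notMem_tsupport hy
    rw [h2.fderiv_eq]; simp
  rw [cauT_eq_conv' (zero_of hs), cauT_eq_conv h0', fderiv_const_smul h1.differentiableAt, h1.fderiv]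
  simp only [smul_apply]
  congr 1
  have hexi := ((hcs_of hs).fderiv ℝ).convolutionExists_right
    ((ContinuousLinearMap.mul ℝ ℂ).precompR ℂ) loc_ik (hK.continuous_fderiv (by simp)) z
  unfold convolution
  rw [ContinuousLinearMap.integral_apply hexi]
  rfl

theorem WB_of {K : ℂ → ℂ} (hK : Continuous K) {B : ℝ} (hB : ∀ w, ‖K w‖ ≤ B) : WB 0 B K :=
  WB.of_bdd le_rfl hK.aestronglyMeasurable fun w _ => hB w

/-- bounds of the derivative of a Cauchy transform -/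
theorem bound_fderiv_cauT {K : ℂ → ℂ} (hK : ContDiff ℝ 1 K) (hs : tsupport K ⊆ ball (0:ℂ) 1)
    {B : ℝ} (hB : ∀ w, ‖fderiv ℝ K w‖ ≤ B) (z : ℂ) :
    ‖fderiv ℝ (cauT K) z‖ ≤ cst 0 1 / Real.pi * B := by
  have hB0 : 0 ≤ B := le_trans (norm_nonneg (fderiv ℝ K 0)) (hB 0)
  have hc := cst_nonneg 0 1
  refine ContinuousLinearMap.opNorm_le_bound _ (by positivity) fun v => ?_
  rw [fderiv_cauT hK hs]
  have h1 : WB 0 (B * ‖v‖) fun w => fderiv ℝ K w v := WB_of (cont_dir hK v) fun w =>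
    ((fderiv ℝ K w).le_opNorm v).trans (by gcongr; exact hB w)
  have h2 := h1.norm_cauT_le le_rfl one_pos z
  refine h2.trans (le_of_eq ?_)
  ring

theorem holder_fderiv_cauT {K : ℂ → ℂ} (hK : ContDiff ℝ 1 K) (hs : tsupport K ⊆ ball (0:ℂ) 1)
    {B : ℝ} (hB : ∀ w, ‖fderiv ℝ K w‖ ≤ B) {h : ℝ} (h0 : 0 ≤ h) (h1 : h < 1) (z z' : ℂ) :
    ‖fderiv ℝ (cauT K) z - fderiv ℝ (cauT K) z'‖ ≤
      4 * cst 0 (1 + h) / Real.pi * B * ‖z - z'‖ ^ h := by
  have hB0 : 0 ≤ B := le_trans (norm_nonneg (fderiv ℝ K 0)) (hB 0)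
  have hc := cst_nonneg 0 (1 + h)
  refine ContinuousLinearMap.opNorm_le_bound _ (by positivity) fun v => ?_
  rw [ContinuousLinearMap.sub_apply, fderiv_cauT hK hs, fderiv_cauT hK hs]
  have h1 : WB 0 (B * ‖v‖) fun w => fderiv ℝ K w v := WB_of (cont_dir hK v) fun w =>
    ((fderiv ℝ K w).le_opNorm v).trans (by gcongr; exact hB w)
  have h2 := h1.cauT_holder le_rfl h0 (by linarith) z z'
  refine h2.trans (le_of_eq ?_)
  ring

end

end Vale.Agent.P247.H734
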