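import Vale.Agent.P247.H667.Poly
import Vale.Agent.P247.H324.MG.Def

/-! P247, PUI-S (helper734): the dichotomy step. -/

set_option linter.unusedSectionVars false

open MeasureTheory Filter Topology Set Metric
open scoped ContDiff

namespace Vale.Agent.P247.H734

open Vale.Agent.P247.H324 (pb)
open Vale.Agent.P247.H667

noncomputable section

theorem isPreconnected_pb (r : ℝ) : IsPreconnected (pb r) := by
  rcases le_or_gt r 0 with hr | hr
  · have : pb r = ∅ := by
      unfold pb; rw [ball_eq_empty.2 hr, empty_sdiff]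
    rw [this]; exact isPreconnected_empty
  have himg : pb r = (fun p : ℝ × ℝ => (p.1 : ℂ) * Complex.exp (p.2 * Complex.I)) ''
      (Ioo 0 r ×ˢ (univ : Set ℝ)) := by
    ext z
    constructor
    · intro hz
      refine ⟨(‖z‖, z.arg), ⟨⟨norm_pos_iff.2 hz.2, mem_ball_zero_iff.1 hz.1⟩, trivial⟩, ?_⟩
      exact Complex.norm_mul_exp_arg_mul_I z
    · rintro ⟨⟨s, θ⟩, ⟨⟨h1, h2⟩, -⟩, rfl⟩
      constructor
      · rw [mem_ball_zero_iff, norm_mul, Complex.norm_exp_ofReal_mul_I, mul_one, Complex.norm_real,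
          Real.norm_of_nonneg h1.le]
        exact h2
      · simp only [mem_singleton_iff, mul_eq_zero, Complex.exp_ne_zero, or_false]
        exact_mod_cast h1.ne'
  rw [himg]
  refine ((isPreconnected_Ioo).prod isPreconnected_univ).image _ ?_
  fun_prop

theorem pb_mem_nhds {r : ℝ} (hr : 0 < r) : pb r ∈ 𝓝[≠] (0:ℂ) := by
  rw [mem_nhdsWithin]
  exact ⟨ball 0 r, isOpen_ball, mem_ball_self hr, fun x hx => ⟨hx.1, hx.2⟩⟩

theorem exists_pb {s : Set ℂ} (hs : s ∈ 𝓝[≠] (0:ℂ)) : ∃ r > 0, pb r ⊆ s := by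
  obtain ⟨u, hu, h0, hs⟩ := mem_nhdsWithin.1 hs
  obtain ⟨r, hr, hb⟩ := Metric.isOpen_iff.1 hu 0 h0
  exact ⟨r, hr, fun x hx => hs ⟨hb hx.1, hx.2⟩⟩

/-- a continuous function on the punctured disc converges if a power does -/
theorem root_tendsto {f : ℂ → ℂ} {r : ℝ} (hr : 0 < r) (hf : ContinuousOn f (pb r)) {n : ℕ}
    (hn : 1 ≤ n) {a : ℂ} (ha : Tendsto (fun z => f z ^ n) (𝓝[≠] 0) (𝓝 a)) :
    ∃ b, b ^ n = a ∧ Tendsto f (𝓝[≠] 0) (𝓝 b) := by
  have hn0 : n ≠ 0 := by omega
  rcases eq_or_ne a 0 with rfl | ha0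
  · refine ⟨0, zero_pow hn0, ?_⟩
    rw [tendsto_zero_iff_norm_tendsto_zero] at ha ⊢
    have h1 : Tendsto (fun z => (‖f z ^ n‖) ^ ((n:ℝ)⁻¹)) (𝓝[≠] 0) (𝓝 ((0:ℝ) ^ ((n:ℝ)⁻¹))) :=
      ha.rpow_const (Or.inr (by positivity))
    rw [Real.zero_rpow (by positivity)] at h1
    refine h1.congr fun z => ?_
    rw [norm_pow]
    exact Real.pow_rpow_inv_natCast (norm_nonneg _) hn0
  · have h1 : Tendsto (fun z => f z ^ n / a) (𝓝[≠] 0) (𝓝 1) := by
      have := ha.div_const a
      rwa [div_self ha0] at this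
    obtain ⟨ρ, hρ, hρs⟩ := exists_pb (inter_mem (pb_mem_nhds hr)
      (h1.eventually (Complex.isOpen_slitPlane.mem_nhds Complex.one_mem_slitPlane)))
    obtain ⟨b0, hb0⟩ := IsAlgClosed.exists_pow_nat_eq a (by omega : 0 < n)
    have hb00 : b0 ≠ 0 := by
      rintro rfl
      rw [zero_pow hn0] at hb0
      exact ha0 hb0.symm
    set g : ℂ → ℂ := fun z => (f z ^ n / a) ^ ((n:ℂ)⁻¹) with hg
    have hgn : ∀ z, g z ^ n = f z ^ n / a := fun z => Complex.cpow_nat_inv_pow _ hn0
    have hsl : ∀ z ∈ pb ρ, f z ^ n / a ∈ Complex.slitPlane := fun z hz => (hρs hz).2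
    have hfc : ContinuousOn f (pb ρ) := hf.mono fun z hz => (hρs hz).1
    have hgc : ContinuousOn g (pb ρ) := by
      refine ContinuousOn.cpow ((hfc.pow n).div_const a) continuousOn_const hsl
    have hgne : ∀ z ∈ pb ρ, g z ≠ 0 := by
      intro z hz h0
      have h2 := hgn z
      rw [h0, zero_pow hn0] at h2
      have h3 := hsl z hz
      rw [← h2] at h3
      exact Complex.zero_notMem_slitPlane h3
    set h : ℂ → ℂ := fun z => f z / (b0 * g z) with hh
    have hhc : ContinuousOn h (pb ρ) :=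
      hfc.div (continuousOn_const.mul hgc) fun z hz => mul_ne_zero hb00 (hgne z hz)
    have hh1 : ∀ z ∈ pb ρ, h z ^ n = 1 := by
      intro z hz
      simp only [hh]
      rw [div_pow, mul_pow, hgn, hb0, mul_div_cancel₀ _ ha0, div_self]
      intro h0
      have h3 := hsl z hz
      rw [h0, zero_div] at h3
      exact Complex.zero_notMem_slitPlane h3
    set T : Set ℂ := {w | w ^ n = 1} with hT
    have hTf : T.Finite := by
      have h2 : T = ((Polynomial.nthRoots n (1:ℂ)).toFinset : Set ℂ) := by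
        ext w
        simp only [hT, Set.mem_ofPred_eq, Finset.mem_coe, Multiset.mem_toFinset]
        rw [Polynomial.mem_nthRoots (by omega)]
      rw [h2]; exact Finset.finite_toSet _
    set z1 : ℂ := ((ρ / 2 : ℝ) : ℂ) with hz1
    have hz1m : z1 ∈ pb ρ := by
      constructor
      · rw [mem_ball_zero_iff, hz1, Complex.norm_real, Real.norm_of_nonneg (by positivity)]
        linarith
      · intro h0
        rw [hz1, mem_singleton_iff, Complex.ofReal_eq_zero] at h0
        linarith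
    have hconst : ∀ z ∈ pb ρ, h z = h z1 := fun z hz =>
      (isPreconnected_pb ρ).constant_of_mapsTo (T := T) hTf.isDiscrete hhc hh1 hz hz1m
    have hgl : Tendsto g (𝓝[≠] 0) (𝓝 1) := by
      have h2 : ContinuousAt (fun w : ℂ => w ^ ((n:ℂ)⁻¹)) 1 :=
        continuousAt_cpow_const Complex.one_mem_slitPlane
      have h3 := h2.tendsto.comp h1
      rw [Complex.one_cpow] at h3
      exact h3
    refine ⟨h z1 * b0, ?_, ?_⟩
    · rw [mul_pow, hh1 z1 hz1m, one_mul, hb0]
    · have h4 : Tendsto (fun z => h z1 * b0 * g z) (𝓝[≠] 0) (𝓝 (h z1 * b0 * 1)) :=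
        hgl.const_mul _
      rw [mul_one] at h4
      refine h4.congr' ?_
      filter_upwards [pb_mem_nhds hρ] with z hz
      rw [← hconst z hz]
      simp only [hh]
      field_simp [hb00, hgne z hz]

/-- the mean -/
def mean {k : ℕ} (y : Fin k → ℂ) : ℂ := (∑ i, y i) / k

/-- the vector of powers of centred power sums -/
def pvec {k : ℕ} (y : Fin k → ℂ) (l : Fin k) : ℂ :=
  (∑ i, (y i - mean y) ^ (l.1 + 1)) ^ (k.factorial / (l.1 + 1))

theorem cont_centred {k : ℕ} {S : Set ℂ} {Y : ℂ → Fin k → ℂ}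
    (hc : ∀ F : ℂ → ℂ, Continuous F → ContinuousOn (fun z => ∑ i, F (Y z i)) S) (n : ℕ) :
    ContinuousOn (fun z => ∑ i, (Y z i - mean (Y z)) ^ n) S := by
  have hm : ContinuousOn (fun z => mean (Y z)) S := (hc id continuous_id).div_const _
  have h1 : ∀ z, ∑ i, (Y z i - mean (Y z)) ^ n =
      ∑ j ∈ Finset.range (n + 1), (-mean (Y z)) ^ (n - j) * (n.choose j) * ∑ i, Y z i ^ j := by
    intro z
    simp_rw [sub_eq_add_neg, add_pow, Finset.mul_sum]
    rw [Finset.sum_comm]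
    refine Finset.sum_congr rfl fun j _ => Finset.sum_congr rfl fun i _ => ?_
    ring
  simp_rw [h1]
  refine continuousOn_finsetSum _ fun j _ => ?_
  exact ((hm.neg.pow _).mul continuousOn_const).mul (hc (fun w => w ^ j) (by fun_prop))

theorem sum_centred {k : ℕ} (hk : 1 ≤ k) (y : Fin k → ℂ) : ∑ i, (y i - mean y) = 0 := by
  rw [Finset.sum_sub_distrib, Finset.sum_const, Finset.card_univ, Fintype.card_fin, nsmul_eq_mul,
    mean]
  have : (k:ℂ) ≠ 0 := by exact_mod_cast (by omega : k ≠ 0)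
  field_simp
  ring

/-- **the dichotomy** -/
theorem dich {k : ℕ} {r : ℝ} {Y : ℂ → Fin k → ℂ} (hk : 1 ≤ k) (hr : 0 < r)
    (hc : ∀ F : ℂ → ℂ, Continuous F → ContinuousOn (fun z => ∑ i, F (Y z i)) (pb r))
    (hs : (∃ r' > 0, ∀ z ∈ pb r', pvec (Y z) = 0) ∨ ∃ (m : ℕ) (a : Fin k → ℂ), a ≠ 0 ∧
      Tendsto (fun z => (z ^ m)⁻¹ • pvec (Y z)) (𝓝[≠] 0) (𝓝 a)) :
    ∃ (q : ℕ) (r' : ℝ), 1 ≤ q ∧ 0 < r' ∧ r' ^ q ≤ r ∧
      ((∀ t ∈ pb r', ∀ i j, Y (t ^ q) i = Y (t ^ q) j) ∨
      ∃ (h : ℂ → ℂ) (M : ℕ) (c : Fin k → ℂ), ContinuousOn h (pb r') ∧ (∃ i j, c i ≠ c j) ∧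
        ∀ F : ℂ → ℂ, Continuous F →
          Tendsto (fun t => ∑ i, F ((Y (t ^ q) i - h t) / t ^ M)) (𝓝[≠] 0) (𝓝 (∑ i, F (c i)))) := by
  have hexp : ∀ l : Fin k, k.factorial / (l.1 + 1) ≠ 0 ∧
      (l.1 + 1) * (k.factorial / (l.1 + 1)) = k.factorial := by
    intro l
    have h1 : (l.1 + 1) ∣ k.factorial := Nat.dvd_factorial (by omega) (by omega)
    have h2 := Nat.mul_div_cancel' h1
    refine ⟨fun h0 => ?_, h2⟩
    rw [h0, mul_zero] at h2
    exact k.factorial_ne_zero h2.symm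
  rcases hs with ⟨r', hr', hz⟩ | ⟨m, a, ha, hlim⟩
  · refine ⟨1, min r r', le_rfl, lt_min hr hr', by rw [pow_one]; exact min_le_left _ _, Or.inl ?_⟩
    intro t ht i j
    rw [pow_one]
    have h0 := hz t ⟨ball_subset_ball (min_le_right _ _) ht.1, ht.2⟩
    have h1 : ∀ n, 1 ≤ n → n ≤ k → ∑ i, (Y t i - mean (Y t)) ^ n = ∑ i : Fin k, (0:ℂ) ^ n := by
      intro n hn1 hn2
      have h2 := congrFun h0 ⟨n - 1, by omega⟩
      simp only [pvec, Pi.zero_apply] at h2
      rw [Nat.sub_add_cancel hn1] at h2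
      have h3 := (pow_eq_zero_iff (by
        have := (hexp ⟨n - 1, by omega⟩).1
        simp only [Nat.sub_add_cancel hn1] at this
        exact this)).1 h2
      rw [h3, zero_pow (by omega)]
      simp
    have h2 := sum_eq_of_pow (Y := fun i => Y t i - mean (Y t)) (c := fun _ => (0:ℂ)) h1
      (fun z => ‖z‖)
    simp only [norm_zero, Finset.sum_const_zero] at h2
    have h3 : ∀ i, Y t i - mean (Y t) = 0 := fun i =>
      norm_eq_zero.1 ((Finset.sum_eq_zero_iff_of_nonneg fun k _ => norm_nonneg _).1 h2 i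
        (Finset.mem_univ i))
    rw [sub_eq_zero.1 (h3 i), sub_eq_zero.1 (h3 j)]
  · set q := k.factorial with hq
    have hq1 : 1 ≤ q := Nat.one_le_iff_ne_zero.2 k.factorial_ne_zero
    set r' := min r 1 with hr'
    have hr'0 : 0 < r' := lt_min hr one_pos
    have hr'1 : r' ≤ 1 := min_le_right _ _
    have hr'q : r' ^ q ≤ r := by
      calc r' ^ q ≤ r' ^ 1 := pow_le_pow_of_le_one hr'0.le hr'1 hq1
        _ = r' := pow_one _
        _ ≤ r := min_le_left _ _
    have hmaps : MapsTo (fun t : ℂ => t ^ q) (pb r') (pb r) := by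
      intro t ht
      refine ⟨?_, pow_ne_zero _ ht.2⟩
      rw [mem_ball_zero_iff, norm_pow]
      exact (pow_lt_pow_left₀ (mem_ball_zero_iff.1 ht.1) (norm_nonneg _) (by omega)).trans_le hr'q
    have hpc : Continuous fun t : ℂ => t ^ q := by fun_prop
    have htq : Tendsto (fun t : ℂ => t ^ q) (𝓝[≠] 0) (𝓝[≠] 0) := by
      refine tendsto_nhdsWithin_iff.2 ⟨?_, ?_⟩
      · have := (hpc.tendsto (0:ℂ)).mono_left (nhdsWithin_le_nhds (s := {0}ᶜ))
        rwa [zero_pow (by omega)] at this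
      · filter_upwards [self_mem_nhdsWithin] with t ht using pow_ne_zero _ ht
    set f : Fin k → ℂ → ℂ := fun l t => (∑ i, (Y (t ^ q) i - mean (Y (t ^ q))) ^ (l.1 + 1)) /
      t ^ (m * (l.1 + 1)) with hf
    have hfc : ∀ l, ContinuousOn (f l) (pb r') := by
      intro l
      refine ContinuousOn.div ((cont_centred hc (l.1 + 1)).comp hpc.continuousOn hmaps)
        (by fun_prop) fun t ht => pow_ne_zero _ ht.2
    have hlim' := hlim.comp htq
    have hfl : ∀ l : Fin k, Tendsto (fun t => f l t ^ (k.factorial / (l.1 + 1))) (𝓝[≠] 0) (𝓝 (a l)) := by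
      intro l
      have h1 : Tendsto (fun t : ℂ => (((t ^ q) ^ m)⁻¹ • pvec (Y (t ^ q))) l) (𝓝[≠] 0) (𝓝 (a l)) :=
        ((continuous_apply l).tendsto a).comp hlim'
      refine h1.congr fun t => ?_
      simp only [hf, pvec, Pi.smul_apply, smul_eq_mul]
      rw [div_pow, ← pow_mul t (m * (l.1 + 1)), mul_assoc m, (hexp l).2, ← pow_mul t q m,
        mul_comm m k.factorial, ← hq, div_eq_inv_mul]
    choose b hb1 hb2 using fun l => root_tendsto hr'0 (hfc l) (Nat.one_le_iff_ne_zero.2 (hexp l).1) (hfl l)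
    -- extension of `b` to naturals
    set b' : ℕ → ℂ := fun n => if h : n - 1 < k then b ⟨n - 1, h⟩ else 0 with hb'
    set X : ℂ → Fin k → ℂ := fun t i => (Y (t ^ q) i - mean (Y (t ^ q))) / t ^ m with hX
    have hXl : ∀ n, 1 ≤ n → n ≤ k → Tendsto (fun t => ∑ i, X t i ^ n) (𝓝[≠] 0) (𝓝 (b' n)) := by
      intro n hn1 hn2
      have h1 : n - 1 < k := by omega
      simp only [hb', dif_pos h1]
      refine (hb2 ⟨n - 1, h1⟩).congr fun t => ?_
      simp only [hf, hX, div_pow, Nat.sub_add_cancel hn1, ← Finset.sum_div, pow_mul]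
    obtain ⟨c, hc1, hc2⟩ := poly_tendsto hXl
    refine ⟨q, r', hq1, hr'0, hr'q, Or.inr ⟨fun t => mean (Y (t ^ q)), m, c, ?_, ?_, hc2⟩⟩
    · exact ContinuousOn.comp (g := fun z => mean (Y z)) ((hc id continuous_id).div_const _)
        hpc.continuousOn hmaps
    · by_contra hcon
      push Not at hcon
      have i0 : Fin k := ⟨0, by omega⟩
      have hsum0 : ∑ i, c i = 0 := by
        have h1 := hc2 id continuous_id
        have h2 : Tendsto (fun t => ∑ i, id (X t i)) (𝓝[≠] (0:ℂ)) (𝓝 0) := by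
          refine tendsto_const_nhds.congr fun t => ?_
          simp only [id, hX, ← Finset.sum_div]
          rw [sum_centred hk, zero_div]
        exact tendsto_nhds_unique h1 h2
      have hc0 : ∀ i, c i = 0 := by
        intro i
        have h1 : ∑ j, c j = k * c i := by
          rw [Finset.sum_congr rfl fun j _ => hcon j i, Finset.sum_const, Finset.card_univ,
            Fintype.card_fin, nsmul_eq_mul]
        rw [hsum0] at h1
        have : (k:ℂ) ≠ 0 := by exact_mod_cast (by omega : k ≠ 0)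
        exact (mul_eq_zero.1 h1.symm).resolve_left this
      refine ha (funext fun l => ?_)
      have h1 := hc1 (l.1 + 1) (by omega) (by omega)
      simp only [hc0, hb', Nat.add_sub_cancel, l.2, dif_pos, Fin.eta] at h1
      rw [zero_pow (by omega)] at h1
      rw [← hb1 l, ← h1]
      simp [(hexp l).1]

end

end Vale.Agent.P247.H734
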