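import Vale.Agent.P247.H734.JReg
import Vale.Agent.P247.H620.LSX
import Vale.Agent.P247.H620.LBelt

/-! P247, LSX (helper734): joint of helper620's assembly with `CONF` and `JREG`. -/

namespace Vale.Agent.P247.H734

/-- **the statement `LSX`, unconditional** -/
theorem LSX_thm : Vale.Agent.P247.H574.LSX_statement :=
  Vale.Agent.P247.H620.LSX Vale.Agent.P247.H620.CONF JREG

end Vale.Agent.P247.H734
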