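import Vale.Agent.P247.H734.CauD

/-! P247, LSX (helper734): a right inverse of `∂̄` from `C^a` to `C^{1,a}`, from the resolvent of
the Laplacian and the Cauchy transform. -/

set_option linter.unusedSectionVars false

open MeasureTheory Filter Topology Set Metric
open scoped ContDiff Convolution

namespace Vale.Agent.P247.H734

open Vale.Agent.P272.CT
open Vale.Agent.P272.K (LIN.HB LIN.ResBd H.res H.resolvent H.resolvent_bounds)

noncomputable section

open Vale.Agent.P272.K.LIN Vale.Agent.P272.K.H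

/-- bounded in `C^{2,a}` -/
structure Bd2 (a N : ℝ) (v : ℂ → ℝ) : Prop where
  c2 : ContDiff ℝ 2 v
  b0 : ∀ z, ‖v z‖ ≤ N
  b1 : ∀ z, ‖fderiv ℝ v z‖ ≤ N
  b2 : ∀ z, ‖fderiv ℝ (fderiv ℝ v) z‖ ≤ N
  h2 : ∀ z z', ‖fderiv ℝ (fderiv ℝ v) z - fderiv ℝ (fderiv ℝ v) z'‖ ≤ N * ‖z - z'‖ ^ a

theorem Bd2.nonneg {a N : ℝ} {v : ℂ → ℝ} (h : Bd2 a N v) : 0 ≤ N := (norm_nonneg _).trans (h.b0 0)

/-- the Laplacian -/
def lapR (v : ℂ → ℝ) (z : ℂ) : ℝ :=
  fderiv ℝ (fderiv ℝ v) z 1 1 + fderiv ℝ (fderiv ℝ v) z Complex.I Complex.I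

theorem sum_lap (v : ℂ → ℝ) (z : ℂ) :
    ∑ i, fderiv ℝ (fderiv ℝ v) z (Complex.orthonormalBasisOneI i) (Complex.orthonormalBasisOneI i) =
      lapR v z := by
  simp [Fin.sum_univ_two, lapR]

theorem bd2_of_resBd {a C N : ℝ} {v : ℂ → ℝ} (hc : ContDiff ℝ 2 v) (h : ResBd a 1 C N v) :
    Bd2 a (C * N) v := by
  have h0 := h.zero
  have h1 := h.one
  have h2 := h.two
  simp only [Real.one_rpow, mul_one] at h0 h1 h2
  exact ⟨hc, h0.sup, h1.sup, h2.sup, h2.hol⟩

/-- the resolvent at `1` -/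
theorem res_bd {a : ℝ} (ha0 : 0 < a) (ha1 : a < 1) : ∃ C : ℝ, 0 < C ∧
    (∀ (f : ℂ → ℝ) (A B : ℝ), 0 ≤ B → HB a f A B → Bd2 a (C * (A + B)) (res 1 f) ∧
      ∀ z, res 1 f z - lapR (res 1 f) z = f z) ∧
    ∀ (f g : ℂ → ℝ) (A B A' B' A'' B'' : ℝ), 0 ≤ B → 0 ≤ B' → 0 ≤ B'' → HB a f A B → HB a g A' B' →
      HB a (fun z => f z - g z) A'' B'' → Bd2 a (C * (A'' + B'')) (fun z => res 1 f z - res 1 g z) := by
  obtain ⟨C1, hC1, h1⟩ := resolvent ℂ ha0 ha1
  obtain ⟨C2, hC2, h2⟩ := resolvent_bounds ℂ ha0 ha1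
  have mono : ∀ {N N' : ℝ} {v : ℂ → ℝ}, Bd2 a N v → N ≤ N' → Bd2 a N' v := fun h hN =>
    ⟨h.c2, fun z => (h.b0 z).trans hN, fun z => (h.b1 z).trans hN, fun z => (h.b2 z).trans hN,
      fun z z' => (h.h2 z z').trans (by gcongr)⟩
  have hA : ∀ {f : ℂ → ℝ} {A B : ℝ}, HB a f A B → 0 ≤ A := fun h => (norm_nonneg _).trans (h.sup 0)
  have hb1 : ∀ (f : ℂ → ℝ) (A B : ℝ), 0 ≤ B → HB a f A B → Bd2 a (C1 * (A + B)) (res 1 f) ∧
      ∀ z, res 1 f z - lapR (res 1 f) z = f z := by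
    intro f A B hB hf
    obtain ⟨a1, a2, a3⟩ := h1 1 one_pos f A B hB hf
    rw [Real.one_rpow, one_mul] at a3
    refine ⟨bd2_of_resBd a1 a3, fun z => ?_⟩
    have := a2 (Fin 2) Complex.orthonormalBasisOneI z
    rwa [sum_lap, one_mul] at this
  refine ⟨C1 + C2, by positivity, fun f A B hB hf => ?_, ?_⟩
  · obtain ⟨b1, b2⟩ := hb1 f A B hB hf
    have := hA hf
    exact ⟨mono b1 (by nlinarith), b2⟩
  · intro f g A B A' B' A'' B'' hB hB' hB'' hf hg hfg
    obtain ⟨b1, b2⟩ := hb1 f A B hB hf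
    obtain ⟨b3, b4⟩ := hb1 g A' B' hB' hg
    have hd2 : ∀ z, fderiv ℝ (fderiv ℝ fun z => res 1 f z - res 1 g z) z =
        fderiv ℝ (fderiv ℝ (res 1 f)) z - fderiv ℝ (fderiv ℝ (res 1 g)) z := by
      intro z
      have e1 : (fderiv ℝ fun z => res 1 f z - res 1 g z) =
          fun z => fderiv ℝ (res 1 f) z - fderiv ℝ (res 1 g) z := by
        funext z
        exact fderiv_fun_sub (b1.c2.differentiable (by simp)).differentiableAt
          (b3.c2.differentiable (by simp)).differentiableAt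
      rw [e1]
      exact fderiv_fun_sub
        ((b1.c2.fderiv_right (m := 1) (by norm_num)).differentiable (by simp)).differentiableAt
        ((b3.c2.fderiv_right (m := 1) (by norm_num)).differentiable (by simp)).differentiableAt
    have h3 := h2 (Fin 2) Complex.orthonormalBasisOneI 1 one_pos (fun z => res 1 f z - res 1 g z)
      (C1 * (A + B) + C1 * (A' + B')) A'' B'' (b1.c2.sub b3.c2) (fun z => by
        have := norm_sub_le (res 1 f z) (res 1 g z)
        rw [← Real.norm_eq_abs]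
        linarith [b1.b0 z, b3.b0 z]) hB'' (by
        have e : (fun z => 1 * (res 1 f z - res 1 g z) -
            ∑ i, fderiv ℝ (fderiv ℝ fun z => res 1 f z - res 1 g z) z
              (Complex.orthonormalBasisOneI i) (Complex.orthonormalBasisOneI i)) =
            fun z => f z - g z := by
          funext z
          rw [sum_lap, one_mul]
          have e2 : lapR (fun z => res 1 f z - res 1 g z) z = lapR (res 1 f) z - lapR (res 1 g) z := by
            unfold lapR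
            rw [hd2]
            simp only [sub_apply]
            ring
          rw [e2, ← b2 z, ← b4 z]
          ring
        rw [e]; exact hfg)
    rw [Real.one_rpow, one_mul] at h3
    have := hA hfg
    exact mono (bd2_of_resBd (b1.c2.sub b3.c2) h3) (by nlinarith)

end

end Vale.Agent.P247.H734
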