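import Vale.Agent.P247.H734.Par

/-! P247, LSX (helper734): the parametrix operator. -/

set_option linter.unusedSectionVars false

open MeasureTheory Filter Topology Set Metric
open scoped ContDiff Convolution

namespace Vale.Agent.P247.H734

open Vale.Agent.P272.CT Vale.Agent.P272.K.LIN Vale.Agent.P272.K.H

noncomputable section

/-- `-4 ∂v` for real `v` -/
def Wv (v : ℂ → ℝ) (z : ℂ) : ℂ :=
  -2 * ((fderiv ℝ v z 1 : ℂ) - Complex.I * (fderiv ℝ v z Complex.I : ℂ))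

/-- its derivative -/
def Lam0 : (ℂ →L[ℝ] ℂ →L[ℝ] ℝ) →ₗ[ℝ] (ℂ →L[ℝ] ℂ) :=
    { toFun := fun B : ℂ →L[ℝ] ℂ →L[ℝ] ℝ => (-2 : ℂ) • (Complex.ofRealCLM.comp (B.flip 1) -
        Complex.I • Complex.ofRealCLM.comp (B.flip Complex.I))
      map_add' := fun B B' => by
        ext w
        simp
        ring
      map_smul' := fun c B => by
        ext w
        simp
        ring }

theorem Lam0_apply (B : ℂ →L[ℝ] ℂ →L[ℝ] ℝ) (w : ℂ) :
    Lam0 B w = -2 * ((B w 1 : ℂ) - Complex.I * (B w Complex.I : ℂ)) := by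
  simp [Lam0]

theorem norm_Lam0_le (B : ℂ →L[ℝ] ℂ →L[ℝ] ℝ) : ‖Lam0 B‖ ≤ 4 * ‖B‖ := by
  refine ContinuousLinearMap.opNorm_le_bound _ (by positivity) fun w => ?_
  rw [Lam0_apply, norm_mul]
  have h1 : ‖((B w 1 : ℝ) : ℂ)‖ ≤ ‖B‖ * ‖w‖ := by
    rw [Complex.norm_real]
    calc ‖B w 1‖ ≤ ‖B w‖ * ‖(1:ℂ)‖ := (B w).le_opNorm 1
      _ ≤ (‖B‖ * ‖w‖) * 1 := by
          rw [norm_one]; gcongr; exact B.le_opNorm w
      _ = _ := by ring
  have h2 : ‖Complex.I * ((B w Complex.I : ℝ) : ℂ)‖ ≤ ‖B‖ * ‖w‖ := by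
    rw [norm_mul, Complex.norm_I, one_mul, Complex.norm_real]
    calc ‖B w Complex.I‖ ≤ ‖B w‖ * ‖Complex.I‖ := (B w).le_opNorm Complex.I
      _ ≤ (‖B‖ * ‖w‖) * 1 := by
          rw [Complex.norm_I]; gcongr; exact B.le_opNorm w
      _ = _ := by ring
  have h3 := norm_sub_le ((B w 1 : ℝ) : ℂ) (Complex.I * ((B w Complex.I : ℝ) : ℂ))
  have h4 : ‖(-2 : ℂ)‖ = 2 := by norm_num
  rw [h4]
  linarith

theorem continuous_Lam0 : Continuous Lam0 :=
  AddMonoidHomClass.continuous_of_bound Lam0 4 norm_Lam0_le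

theorem hasFDerivAt_Wv {v : ℂ → ℝ} (hv : ContDiff ℝ 2 v) (z : ℂ) :
    HasFDerivAt (Wv v) (Lam0 (fderiv ℝ (fderiv ℝ v) z)) z := by
  have h1 : HasFDerivAt (fderiv ℝ v) (fderiv ℝ (fderiv ℝ v) z) z :=
    ((hv.fderiv_right (m := 1) (by norm_num)).differentiable (by simp)).differentiableAt.hasFDerivAt
  have h2 : ∀ w : ℂ, HasFDerivAt (fun z => ((fderiv ℝ v z w : ℝ) : ℂ))
      (Complex.ofRealCLM.comp ((ContinuousLinearMap.apply ℝ ℝ w).comp (fderiv ℝ (fderiv ℝ v) z))) z :=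
    fun w => Complex.ofRealCLM.hasFDerivAt.comp z
      ((ContinuousLinearMap.apply ℝ ℝ w).hasFDerivAt.comp z h1)
  have h3 := (((h2 1).sub ((h2 Complex.I).const_mul Complex.I)).const_mul (-2 : ℂ))
  refine h3.congr_fderiv ?_
  ext w
  rw [Lam0_apply]
  simp

theorem contDiff_Wv {v : ℂ → ℝ} (hv : ContDiff ℝ 2 v) : ContDiff ℝ 1 (Wv v) := by
  rw [contDiff_one_iff_fderiv]
  refine ⟨fun z => (hasFDerivAt_Wv hv z).differentiableAt, ?_⟩
  have : fderiv ℝ (Wv v) = fun z => Lam0 (fderiv ℝ (fderiv ℝ v) z) :=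
    funext fun z => (hasFDerivAt_Wv hv z).fderiv
  rw [this]
  exact continuous_Lam0.comp ((hv.fderiv_right (m := 1) (by norm_num)).continuous_fderiv (by simp))

theorem dbar_Wv {v : ℂ → ℝ} (hv : ContDiff ℝ 2 v) (z : ℂ) :
    dbar (Wv v) z = - ((lapR v z : ℝ) : ℂ) := by
  unfold dbar
  rw [(hasFDerivAt_Wv hv z).fderiv, Lam0_apply, Lam0_apply]
  have hs : fderiv ℝ (fderiv ℝ v) z 1 Complex.I = fderiv ℝ (fderiv ℝ v) z Complex.I 1 :=
    (hv.contDiffAt.isSymmSndFDerivAt (by simp)).eq _ _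
  rw [hs, lapR]
  push_cast
  ring_nf
  rw [Complex.I_sq]
  ring

/-- the fixed cut-off, one near the closed half disc -/
theorem exists_chi : ∃ χ : ℂ → ℝ, ContDiff ℝ ∞ χ ∧ tsupport χ ⊆ ball (0:ℂ) 1 ∧
    (∀ z ∈ closedBall (0:ℂ) (1/2), χ =ᶠ[𝓝 z] fun _ => 1) ∧ ∀ z, χ z ∈ Icc (0:ℝ) 1 := by
  obtain ⟨χ, h1, _, h3, h4, h5⟩ := exists_cut (isCompact_closedBall (0:ℂ) (1/2))
    (isOpen_ball (x := (0:ℂ)) (ε := 1)) (closedBall_subset_ball (by norm_num))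
  exact ⟨χ, h1, h3, h4, h5⟩

def chi : ℂ → ℝ := exists_chi.choose

theorem chi_smooth : ContDiff ℝ ∞ chi := exists_chi.choose_spec.1
theorem chi_supp : tsupport chi ⊆ ball (0:ℂ) 1 := exists_chi.choose_spec.2.1
theorem chi_one {z : ℂ} (hz : z ∈ closedBall (0:ℂ) (1/2)) : chi =ᶠ[𝓝 z] fun _ => 1 :=
  exists_chi.choose_spec.2.2.1 z hz
theorem chi_mem (z : ℂ) : chi z ∈ Icc (0:ℝ) 1 := exists_chi.choose_spec.2.2.2 z

theorem chi_comp : HasCompactSupport chi :=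
  (isCompact_closedBall (0:ℂ) 1).of_isClosed_subset (isClosed_tsupport chi)
    (chi_supp.trans ball_subset_closedBall)

theorem chi_bound : ∃ M : ℝ, 0 ≤ M ∧ ∀ z, ‖fderiv ℝ chi z‖ ≤ M := by
  obtain ⟨M, hM⟩ := (chi_comp.fderiv ℝ).exists_bound_of_continuous
    (chi_smooth.continuous_fderiv (by simp))
  exact ⟨M, (norm_nonneg _).trans (hM 0), hM⟩

/-- the compactly supported part -/
def Kv (v w : ℂ → ℝ) (z : ℂ) : ℂ := (chi z : ℂ) * ((v z : ℂ) + Complex.I * (w z : ℂ))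

theorem Kv_supp (v w : ℂ → ℝ) : tsupport (Kv v w) ⊆ ball (0:ℂ) 1 := by
  refine (closure_mono ?_).trans chi_supp
  intro z hz h
  exact hz (by simp [Kv, h])

theorem contDiff_Kv {v w : ℂ → ℝ} {n : ℕ∞} (hv : ContDiff ℝ n v) (hw : ContDiff ℝ n w) :
    ContDiff ℝ n (Kv v w) := by
  unfold Kv
  have h1 : ContDiff ℝ n fun z => (chi z : ℂ) :=
    Complex.ofRealCLM.contDiff.comp (chi_smooth.of_le (by exact_mod_cast le_top))
  exact h1.mul ((Complex.ofRealCLM.contDiff.comp hv).add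
    (contDiff_const.mul (Complex.ofRealCLM.contDiff.comp hw)))

theorem Kv_bound : ∃ M : ℝ, 0 ≤ M ∧ ∀ (a N : ℝ) (v w : ℂ → ℝ), Bd2 a N v → Bd2 a N w →
    ∀ z, ‖Kv v w z‖ ≤ M * N ∧ ‖fderiv ℝ (Kv v w) z‖ ≤ M * N := by
  obtain ⟨M, hM, hb⟩ := chi_bound
  refine ⟨2 * M + 2, by positivity, fun a N v w hv hw z => ?_⟩
  have hN := hv.nonneg
  have hsum : ‖(v z : ℂ) + Complex.I * (w z : ℂ)‖ ≤ 2 * N := by
    refine (norm_add_le _ _).trans ?_
    rw [norm_mul, Complex.norm_I, one_mul, Complex.norm_real, Complex.norm_real]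
    linarith [hv.b0 z, hw.b0 z]
  have hchi : ‖(chi z : ℂ)‖ ≤ 1 := by
    rw [Complex.norm_real, Real.norm_eq_abs, abs_of_nonneg (chi_mem z).1]
    exact (chi_mem z).2
  constructor
  · unfold Kv
    rw [norm_mul]
    calc ‖(chi z : ℂ)‖ * ‖(v z : ℂ) + Complex.I * (w z : ℂ)‖ ≤ 1 * (2 * N) := by gcongr
      _ ≤ _ := by nlinarith
  · have e1 : HasFDerivAt (fun z => (chi z : ℂ)) (Complex.ofRealCLM.comp (fderiv ℝ chi z)) z :=
      Complex.ofRealCLM.hasFDerivAt.comp z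
        (chi_smooth.differentiable (by simp)).differentiableAt.hasFDerivAt
    have e2 : HasFDerivAt (fun z => (v z : ℂ)) (Complex.ofRealCLM.comp (fderiv ℝ v z)) z :=
      Complex.ofRealCLM.hasFDerivAt.comp z
        (hv.c2.differentiable (by simp)).differentiableAt.hasFDerivAt
    have e3 : HasFDerivAt (fun z => (w z : ℂ)) (Complex.ofRealCLM.comp (fderiv ℝ w z)) z :=
      Complex.ofRealCLM.hasFDerivAt.comp z
        (hw.c2.differentiable (by simp)).differentiableAt.hasFDerivAt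
    have e4 := e1.mul (e2.add (e3.const_mul Complex.I))
    have e5 : fderiv ℝ (Kv v w) z = _ := e4.fderiv
    rw [e5]
    refine ContinuousLinearMap.opNorm_le_bound _ (by positivity) fun x => ?_
    have n1 : ‖((fderiv ℝ chi z x : ℝ) : ℂ)‖ ≤ M * ‖x‖ := by
      rw [Complex.norm_real]
      exact ((fderiv ℝ chi z).le_opNorm x).trans (by gcongr; exact hb z)
    have n2 : ‖((fderiv ℝ v z x : ℝ) : ℂ)‖ ≤ N * ‖x‖ := by
      rw [Complex.norm_real]
      exact ((fderiv ℝ v z).le_opNorm x).trans (by gcongr; exact hv.b1 z)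
    have n3 : ‖((fderiv ℝ w z x : ℝ) : ℂ)‖ ≤ N * ‖x‖ := by
      rw [Complex.norm_real]
      exact ((fderiv ℝ w z).le_opNorm x).trans (by gcongr; exact hw.b1 z)
    simp only [add_apply, smul_apply, ContinuousLinearMap.comp_apply,
      Complex.ofRealCLM_apply, smul_eq_mul]
    calc _ ≤ ‖(chi z : ℂ)‖ * (‖((fderiv ℝ v z x : ℝ) : ℂ)‖ + ‖((fderiv ℝ w z x : ℝ) : ℂ)‖) +
          ‖(v z : ℂ) + Complex.I * (w z : ℂ)‖ * ‖((fderiv ℝ chi z x : ℝ) : ℂ)‖ := by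
          refine (norm_add_le _ _).trans ?_
          rw [norm_mul, norm_mul]
          refine add_le_add (mul_le_mul_of_nonneg_left ?_ (norm_nonneg _)) le_rfl
          refine (norm_add_le _ _).trans ?_
          rw [norm_mul, Complex.norm_I, one_mul]
      _ ≤ 1 * (N * ‖x‖ + N * ‖x‖) + (2 * N) * (M * ‖x‖) := by gcongr
      _ = (2 * M + 2) * N * ‖x‖ := by ring

end

end Vale.Agent.P247.H734
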