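import Vale.Agent.P247.H734.Par2

/-! P247, LSX (helper734): the parametrix: `PP f` is of class `C^{1,a}` and `∂̄ (PP f) = f` on the
half disc. -/

set_option linter.unusedSectionVars false

open MeasureTheory Filter Topology Set Metric
open scoped ContDiff Convolution

namespace Vale.Agent.P247.H734

open Vale.Agent.P272.CT Vale.Agent.P272.K.LIN Vale.Agent.P272.K.H

noncomputable section

theorem Lam0_sub (B B' : ℂ →L[ℝ] ℂ →L[ℝ] ℝ) : Lam0 (B - B') = Lam0 B - Lam0 B' :=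
  LinearMap.map_sub Lam0 B B'

theorem norm_Wv_le {a N : ℝ} {v : ℂ → ℝ} (h : Bd2 a N v) (z : ℂ) : ‖Wv v z‖ ≤ 4 * N := by
  unfold Wv
  rw [norm_mul]
  have h1 : ‖((fderiv ℝ v z 1 : ℝ) : ℂ)‖ ≤ N := by
    rw [Complex.norm_real]
    have := (fderiv ℝ v z).le_opNorm 1
    rw [norm_one, mul_one] at this
    exact this.trans (h.b1 z)
  have h2 : ‖Complex.I * ((fderiv ℝ v z Complex.I : ℝ) : ℂ)‖ ≤ N := by
    rw [norm_mul, Complex.norm_I, one_mul, Complex.norm_real]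
    have := (fderiv ℝ v z).le_opNorm Complex.I
    rw [Complex.norm_I, mul_one] at this
    exact this.trans (h.b1 z)
  have h3 := norm_sub_le ((fderiv ℝ v z 1 : ℝ) : ℂ) (Complex.I * ((fderiv ℝ v z Complex.I : ℝ) : ℂ))
  have h4 : ‖(-2 : ℂ)‖ = 2 := by norm_num
  rw [h4]
  linarith

theorem Wv_sub {v v' : ℂ → ℝ} (hv : ContDiff ℝ 2 v) (hv' : ContDiff ℝ 2 v') (z : ℂ) :
    Wv (fun z => v z - v' z) z = Wv v z - Wv v' z := by
  unfold Wv
  rw [fderiv_fun_sub (hv.differentiable (by simp)).differentiableAt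
    (hv'.differentiable (by simp)).differentiableAt]
  simp only [sub_apply]
  push_cast
  ring

/-- the parametrix in terms of the two real functions -/
def QQ (v w : ℂ → ℝ) (z : ℂ) : ℂ := Wv v z + Complex.I * Wv w z + cauT (Kv v w) z

theorem contDiff_cauK {v w : ℂ → ℝ} (hv : ContDiff ℝ 2 v) (hw : ContDiff ℝ 2 w) :
    ContDiff ℝ 1 (cauT (Kv v w)) := by
  have h1 : ContDiff ℝ ((1 : ℕ∞) : WithTop ℕ∞) (Kv v w) :=
    contDiff_Kv (hv.of_le (by norm_num)) (hw.of_le (by norm_num))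
  exact contDiff_cauT h1 (Kv_supp v w)

theorem hasFDerivAt_QQ {v w : ℂ → ℝ} (hv : ContDiff ℝ 2 v) (hw : ContDiff ℝ 2 w) (z : ℂ) :
    HasFDerivAt (QQ v w) (Lam0 (fderiv ℝ (fderiv ℝ v) z) +
      Complex.I • Lam0 (fderiv ℝ (fderiv ℝ w) z) + fderiv ℝ (cauT (Kv v w)) z) z :=
  ((hasFDerivAt_Wv hv z).add ((hasFDerivAt_Wv hw z).const_mul Complex.I)).add
    ((contDiff_cauK hv hw).differentiable (by simp)).differentiableAt.hasFDerivAt

theorem contDiff_QQ {v w : ℂ → ℝ} (hv : ContDiff ℝ 2 v) (hw : ContDiff ℝ 2 w) :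
    ContDiff ℝ 1 (QQ v w) :=
  ((contDiff_Wv hv).add (contDiff_const.mul (contDiff_Wv hw))).add (contDiff_cauK hv hw)

theorem dbar_cauK {v w : ℂ → ℝ} (hv : ContDiff ℝ 2 v) (hw : ContDiff ℝ 2 w) {z : ℂ}
    (hz : z ∈ ball (0:ℂ) 1) : dbar (cauT (Kv v w)) z = Kv v w z := by
  have h0 : ContDiff ℝ ((2 : ℕ∞) : WithTop ℕ∞) (Kv v w) := contDiff_Kv hv hw
  have hc : Continuous (Kv v w) := h0.continuous
  have h1 : WDb (ball 0 1) (cauT (Kv v w)) (Kv v w) :=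
    wdb_cauT ((hc.integrable_of_hasCompactSupport (hcs_of (Kv_supp v w))).integrableOn)
  exact h1.dbarV_eq isOpen_ball (contDiff_cauK hv hw).contDiffOn hc.continuousOn hz

theorem dbar_QQ {v w : ℂ → ℝ} (hv : ContDiff ℝ 2 v) (hw : ContDiff ℝ 2 w) {z : ℂ}
    (hz : z ∈ ball (0:ℂ) 1) : dbar (QQ v w) z =
      - ((lapR v z : ℝ) : ℂ) - Complex.I * ((lapR w z : ℝ) : ℂ) + Kv v w z := by
  have e1 := dbar_Wv hv z
  have e2 := dbar_Wv hw z
  have e3 := dbar_cauK hv hw hz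
  unfold dbar at e1 e2 e3 ⊢
  rw [(hasFDerivAt_Wv hv z).fderiv] at e1
  rw [(hasFDerivAt_Wv hw z).fderiv] at e2
  rw [(hasFDerivAt_QQ hv hw z).fderiv]
  simp only [add_apply, smul_apply, smul_eq_mul]
  rw [← e3]
  linear_combination e1 + Complex.I * e2

theorem QQ_bd {a : ℝ} (ha0 : 0 < a) (ha1 : a < 1) : ∃ M : ℝ, 0 ≤ M ∧ ∀ (N : ℝ) (v w : ℂ → ℝ),
    Bd2 a N v → Bd2 a N w → (∀ z, ‖QQ v w z‖ ≤ M * N) ∧ HB a (fderiv ℝ (QQ v w)) (M * N) (M * N) := by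
  obtain ⟨M, hM, hb⟩ := Kv_bound
  have c1 := cst_nonneg 0 1
  have c2 := cst_nonneg 0 (1 + a)
  have hpi := Real.pi_pos
  refine ⟨8 + cst 0 1 / Real.pi * M + 4 * cst 0 (1 + a) / Real.pi * M, by positivity,
    fun N v w hv hw => ?_⟩
  have hN := hv.nonneg
  have hK0 : ContDiff ℝ ((2 : ℕ∞) : WithTop ℕ∞) (Kv v w) := contDiff_Kv hv.c2 hw.c2
  have hK1 : ContDiff ℝ 1 (Kv v w) := hK0.of_le (by norm_num)
  have p1 : 0 ≤ cst 0 1 / Real.pi * M * N := by positivity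
  have p2 : 0 ≤ 4 * cst 0 (1 + a) / Real.pi * M * N := by positivity
  have hd : ∀ z, fderiv ℝ (QQ v w) z = Lam0 (fderiv ℝ (fderiv ℝ v) z) +
      Complex.I • Lam0 (fderiv ℝ (fderiv ℝ w) z) + fderiv ℝ (cauT (Kv v w)) z := fun z =>
    (hasFDerivAt_QQ hv.c2 hw.c2 z).fderiv
  have nI : ∀ L : ℂ →L[ℝ] ℂ, ‖Complex.I • L‖ = ‖L‖ := fun L => by
    rw [norm_smul, Complex.norm_I, one_mul]
  refine ⟨fun z => ?_, fun z => ?_, fun z z' => ?_⟩
  · have h1 := norm_Wv_le hv z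
    have h2 := norm_Wv_le hw z
    have h3 : ‖cauT (Kv v w) z‖ ≤ cst 0 1 / Real.pi * (M * N) :=
      (WB_of hK0.continuous fun w' => (hb a N v w hv hw w').1).norm_cauT_le le_rfl one_pos z
    unfold QQ
    refine (norm_add_le _ _).trans ?_
    have h4 := norm_add_le (Wv v z) (Complex.I * Wv w z)
    rw [norm_mul, Complex.norm_I, one_mul] at h4
    nlinarith
  · rw [hd]
    have h1 := (norm_Lam0_le (fderiv ℝ (fderiv ℝ v) z)).trans
      (mul_le_mul_of_nonneg_left (hv.b2 z) (by norm_num))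
    have h2 := (norm_Lam0_le (fderiv ℝ (fderiv ℝ w) z)).trans
      (mul_le_mul_of_nonneg_left (hw.b2 z) (by norm_num))
    have h3 := bound_fderiv_cauT hK1 (Kv_supp v w) (fun w' => (hb a N v w hv hw w').2) z
    refine (norm_add_le _ _).trans ?_
    have h4 := norm_add_le (Lam0 (fderiv ℝ (fderiv ℝ v) z))
      (Complex.I • Lam0 (fderiv ℝ (fderiv ℝ w) z))
    rw [nI] at h4
    nlinarith
  · rw [hd, hd]
    have e : Lam0 (fderiv ℝ (fderiv ℝ v) z) +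
        Complex.I • Lam0 (fderiv ℝ (fderiv ℝ w) z) + fderiv ℝ (cauT (Kv v w)) z -
        (Lam0 (fderiv ℝ (fderiv ℝ v) z') +
        Complex.I • Lam0 (fderiv ℝ (fderiv ℝ w) z') + fderiv ℝ (cauT (Kv v w)) z') =
        Lam0 (fderiv ℝ (fderiv ℝ v) z - fderiv ℝ (fderiv ℝ v) z') +
        Complex.I • Lam0 (fderiv ℝ (fderiv ℝ w) z - fderiv ℝ (fderiv ℝ w) z') +
        (fderiv ℝ (cauT (Kv v w)) z - fderiv ℝ (cauT (Kv v w)) z') := by
      rw [Lam0_sub, Lam0_sub, smul_sub]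
      abel
    rw [e]
    have h1 := (norm_Lam0_le (fderiv ℝ (fderiv ℝ v) z - fderiv ℝ (fderiv ℝ v) z')).trans
      (mul_le_mul_of_nonneg_left (hv.h2 z z') (by norm_num))
    have h2 := (norm_Lam0_le (fderiv ℝ (fderiv ℝ w) z - fderiv ℝ (fderiv ℝ w) z')).trans
      (mul_le_mul_of_nonneg_left (hw.h2 z z') (by norm_num))
    have h3 := holder_fderiv_cauT hK1 (Kv_supp v w) (fun w' => (hb a N v w hv hw w').2) ha0.le ha1
      z z'
    refine (norm_add_le _ _).trans ?_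
    have h4 := norm_add_le (Lam0 (fderiv ℝ (fderiv ℝ v) z - fderiv ℝ (fderiv ℝ v) z'))
      (Complex.I • Lam0 (fderiv ℝ (fderiv ℝ w) z - fderiv ℝ (fderiv ℝ w) z'))
    rw [nI] at h4
    have hr : 0 ≤ ‖z - z'‖ ^ a := by positivity
    have hNr : 0 ≤ N * ‖z - z'‖ ^ a := by positivity
    have p3 : 0 ≤ cst 0 1 / Real.pi * M * N * ‖z - z'‖ ^ a := by positivity
    nlinarith

theorem QQ_sub {a N N' : ℝ} {v v' w w' : ℂ → ℝ} (hv : Bd2 a N v) (hv' : Bd2 a N' v')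
    (hw : Bd2 a N w) (hw' : Bd2 a N' w') (z : ℂ) :
    QQ (fun z => v z - v' z) (fun z => w z - w' z) z = QQ v w z - QQ v' w' z := by
  obtain ⟨M, hM, hb⟩ := Kv_bound
  unfold QQ
  rw [Wv_sub hv.c2 hv'.c2, Wv_sub hw.c2 hw'.c2]
  have h0 : ContDiff ℝ ((2 : ℕ∞) : WithTop ℕ∞) (Kv v w) := contDiff_Kv hv.c2 hw.c2
  have h0' : ContDiff ℝ ((2 : ℕ∞) : WithTop ℕ∞) (Kv v' w') := contDiff_Kv hv'.c2 hw'.c2
  have h1 := WB.cauT_sub le_rfl one_pos (WB_of h0.continuous fun x => (hb a N v w hv hw x).1)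
    (WB_of h0'.continuous fun x => (hb a N' v' w' hv' hw' x).1) z
  have h2 : Kv (fun z => v z - v' z) (fun z => w z - w' z) = fun z => Kv v w z - Kv v' w' z := by
    funext x
    simp only [Kv]
    push_cast
    ring
  rw [h2, h1]
  ring

/-- the parametrix -/
def PP (f : ℂ → ℂ) : ℂ → ℂ := QQ (res 1 fun z => (f z).re) (res 1 fun z => (f z).im)

theorem HB.re {a A B : ℝ} {f : ℂ → ℂ} (h : HB a f A B) : HB a (fun z => (f z).re) A B :=
  ⟨fun x => (Complex.abs_re_le_norm _).trans (h.sup x), fun x y => by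
    rw [← Complex.sub_re]
    exact (Complex.abs_re_le_norm _).trans (h.hol x y)⟩

theorem HB.im {a A B : ℝ} {f : ℂ → ℂ} (h : HB a f A B) : HB a (fun z => (f z).im) A B :=
  ⟨fun x => (Complex.abs_im_le_norm _).trans (h.sup x), fun x y => by
    rw [← Complex.sub_im]
    exact (Complex.abs_im_le_norm _).trans (h.hol x y)⟩

/-- **properties of the parametrix** -/
theorem PP_main {a : ℝ} (ha0 : 0 < a) (ha1 : a < 1) : ∃ M : ℝ, 0 ≤ M ∧
    (∀ (f : ℂ → ℂ) (A B : ℝ), 0 ≤ B → HB a f A B → ContDiff ℝ 1 (PP f) ∧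
      (∀ z, ‖PP f z‖ ≤ M * (A + B)) ∧
      HB a (fderiv ℝ (PP f)) (M * (A + B)) (M * (A + B)) ∧
      ∀ z ∈ ball (0:ℂ) (1/2), dbar (PP f) z = f z) ∧
    ∀ (f g : ℂ → ℂ) (A B A' B' A'' B'' : ℝ), 0 ≤ B → 0 ≤ B' → 0 ≤ B'' → HB a f A B → HB a g A' B' →
      HB a (fun z => f z - g z) A'' B'' →
      (∀ z, ‖PP f z - PP g z‖ ≤ M * (A'' + B'')) ∧
      HB a (fun z => fderiv ℝ (PP f) z - fderiv ℝ (PP g) z) (M * (A'' + B'')) (M * (A'' + B'')) := by
  obtain ⟨C, hC, hr1, hr2⟩ := res_bd ha0 ha1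
  obtain ⟨M, hM, hq⟩ := QQ_bd ha0 ha1
  refine ⟨M * C, by positivity, fun f A B hB hf => ?_, fun f g A B A' B' A'' B'' hB hB' hB'' hf hg hfg => ?_⟩
  · obtain ⟨b1, e1⟩ := hr1 _ A B hB (HB.re hf)
    obtain ⟨b2, e2⟩ := hr1 _ A B hB (HB.im hf)
    obtain ⟨q1, q2⟩ := hq _ _ _ b1 b2
    rw [← mul_assoc] at q1 q2
    refine ⟨contDiff_QQ b1.c2 b2.c2, q1, q2, fun z hz => ?_⟩
    have hz1 : z ∈ ball (0:ℂ) 1 := ball_subset_ball (by norm_num) hz
    unfold PP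
    rw [dbar_QQ b1.c2 b2.c2 hz1, Kv, (chi_one (ball_subset_closedBall hz)).self_of_nhds]
    have h1 : ((lapR (res 1 fun z => (f z).re) z : ℝ) : ℂ) =
        ((res 1 (fun z => (f z).re) z : ℝ) : ℂ) - ((f z).re : ℂ) := by
      rw [← e1 z]; push_cast; ring
    have h2 : ((lapR (res 1 fun z => (f z).im) z : ℝ) : ℂ) =
        ((res 1 (fun z => (f z).im) z : ℝ) : ℂ) - ((f z).im : ℂ) := by
      rw [← e2 z]; push_cast; ring
    rw [h1, h2]
    push_cast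
    have h3 := Complex.re_add_im (f z)
    linear_combination h3
  · obtain ⟨b1, -⟩ := hr1 _ A B hB (HB.re hf)
    obtain ⟨b2, -⟩ := hr1 _ A B hB (HB.im hf)
    obtain ⟨b3, -⟩ := hr1 _ A' B' hB' (HB.re hg)
    obtain ⟨b4, -⟩ := hr1 _ A' B' hB' (HB.im hg)
    have d1 := hr2 _ _ A B A' B' A'' B'' hB hB' hB'' (HB.re hf) (HB.re hg)
      (by simpa using HB.re hfg)
    have d2 := hr2 _ _ A B A' B' A'' B'' hB hB' hB'' (HB.im hf) (HB.im hg)
      (by simpa using HB.im hfg)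
    obtain ⟨q1, q2⟩ := hq _ _ _ d1 d2
    rw [← mul_assoc] at q1 q2
    have e1 : QQ (fun z => res 1 (fun z => (f z).re) z - res 1 (fun z => (g z).re) z)
        (fun z => res 1 (fun z => (f z).im) z - res 1 (fun z => (g z).im) z) =
        fun z => PP f z - PP g z := funext fun z => QQ_sub b1 b3 b2 b4 z
    rw [e1] at q1 q2
    have e2 : fderiv ℝ (fun z => PP f z - PP g z) = fun z => fderiv ℝ (PP f) z - fderiv ℝ (PP g) z := by
      funext z
      exact fderiv_fun_sub ((contDiff_QQ b1.c2 b2.c2).differentiable (by simp)).differentiableAt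
        ((contDiff_QQ b3.c2 b4.c2).differentiable (by simp)).differentiableAt
    rw [e2] at q2
    exact ⟨q1, q2⟩

end

end Vale.Agent.P247.H734
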