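import Vale.Agent.P247.H734.WeakJ
import Vale.Agent.P247.H324.SPM.Scale

/-! P247, LSX (helper734): a `J`-holomorphic map of a punctured disc with gradient
`O(|z|^(g-1))` has bounded gradient, with a limit at the puncture. -/

set_option linter.unusedSectionVars false

open MeasureTheory Filter Topology Set Metric
open scoped ContDiff ENNReal

namespace Vale.Agent.P247.H734

open Vale.Agent.P247.H74 hiding dbar
open Vale.Agent.P272.CT Vale.Agent.P247.H324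

noncomputable section

theorem lint_pow_unit {g : ℝ} (hg : 0 ≤ g) :
    ∫⁻ w in ball (0:ℂ) 1, ENNReal.ofReal (‖w‖ ^ (g - 1)) ≤ ENNReal.ofReal (cst 0 1) := by
  refine le_trans ?_ (lint_kernel_le (α := 0) (β := 1) le_rfl le_rfl (by norm_num) 0)
  refine setLIntegral_mono_ae' measurableSet_ball ?_
  have hne : ∀ᵐ w : ℂ, w ≠ 0 := by rw [ae_iff]; simp
  filter_upwards [hne] with w hw hw1
  rw [mem_ball_zero_iff] at hw1
  refine ENNReal.ofReal_le_ofReal ?_
  rw [neg_zero, Real.rpow_zero, one_mul, zero_sub, norm_neg]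
  exact Real.rpow_le_rpow_of_exponent_ge (norm_pos_iff.2 hw) hw1.le (by linarith)

theorem lint_pow_ball {g R : ℝ} (hg : 0 ≤ g) (hR : 0 < R) :
    ∫⁻ w in ball (0:ℂ) R, ENNReal.ofReal (‖w‖ ^ (g - 1)) ≤
      ENNReal.ofReal (cst 0 1 * R ^ (1 + g)) := by
  have h1 := sc_lintegral 0 hR (measurableSet_ball (x := (0:ℂ)) (ε := 1))
    (fun w => ENNReal.ofReal (‖w‖ ^ (g - 1)))
  have h2 : sc 0 R '' ball 0 1 = ball 0 R := by
    rw [sc_image_ball 0 0 hR 1]
    simp [sc]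
  rw [h2] at h1
  have h3 : ∀ z : ℂ, ENNReal.ofReal (‖sc 0 R z‖ ^ (g - 1)) =
      ENNReal.ofReal (R ^ (g - 1)) * ENNReal.ofReal (‖z‖ ^ (g - 1)) := by
    intro z
    rw [← ENNReal.ofReal_mul (by positivity)]
    simp only [sc, zero_add, norm_smul, Real.norm_of_nonneg hR.le]
    rw [Real.mul_rpow hR.le (norm_nonneg _)]
  simp only [h3] at h1
  rw [lintegral_const_mul' _ _ ENNReal.ofReal_ne_top] at h1
  have h4 : ∫⁻ w in ball (0:ℂ) R, ENNReal.ofReal (‖w‖ ^ (g - 1)) =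
      ENNReal.ofReal (R ^ 2) * (ENNReal.ofReal (R ^ (g - 1)) *
        ∫⁻ w in ball (0:ℂ) 1, ENNReal.ofReal (‖w‖ ^ (g - 1))) := by
    rw [h1, ← mul_assoc, ← ENNReal.ofReal_mul (by positivity), mul_inv_cancel₀ (by positivity),
      ENNReal.ofReal_one, one_mul]
  rw [h4]
  calc _ ≤ ENNReal.ofReal (R ^ 2) * (ENNReal.ofReal (R ^ (g - 1)) * ENNReal.ofReal (cst 0 1)) := by
        gcongr
        exact lint_pow_unit hg
    _ = _ := by
        rw [← ENNReal.ofReal_mul (by positivity), ← ENNReal.ofReal_mul (by positivity)]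
        congr 1
        rw [← mul_assoc, ← Real.rpow_natCast R 2, ← Real.rpow_add hR, mul_comm]
        congr 2
        push_cast; ring

/-- the Morrey bound of a power -/
theorem mor_pow {g C : ℝ} (hg : 0 < g) (hg1 : g ≤ 1) (hC : 0 ≤ C) (R : ℝ) :
    ∃ K, 0 ≤ K ∧ ∀ x : ℂ, ∀ ρ : ℝ, 0 < ρ → ∫⁻ w in ball x ρ ∩ ball 0 R,
      ENNReal.ofReal (C * ‖w‖ ^ (g - 1)) ≤ ENNReal.ofReal (K * ρ ^ (1 + g)) := by
  have hcst := cst_nonneg 0 1
  refine ⟨C * (Real.pi + cst 0 1 * 3 ^ (1 + g)), by positivity, fun x ρ hρ => ?_⟩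
  have h0 : ∫⁻ w in ball x ρ ∩ ball 0 R, ENNReal.ofReal (C * ‖w‖ ^ (g - 1)) ≤
      ENNReal.ofReal C * ∫⁻ w in ball x ρ, ENNReal.ofReal (‖w‖ ^ (g - 1)) := by
    rw [← lintegral_const_mul' _ _ ENNReal.ofReal_ne_top]
    refine (lintegral_mono_set inter_subset_left).trans (le_of_eq ?_)
    simp only [ENNReal.ofReal_mul hC]
  refine h0.trans ?_
  have key : ∫⁻ w in ball x ρ, ENNReal.ofReal (‖w‖ ^ (g - 1)) ≤
      ENNReal.ofReal ((Real.pi + cst 0 1 * 3 ^ (1 + g)) * ρ ^ (1 + g)) := by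
    rcases le_total (2 * ρ) ‖x‖ with h | h
    · calc ∫⁻ w in ball x ρ, ENNReal.ofReal (‖w‖ ^ (g - 1))
          ≤ ∫⁻ _ in ball x ρ, ENNReal.ofReal (ρ ^ (g - 1)) := by
            refine setLIntegral_mono' measurableSet_ball fun w hw => ?_
            refine ENNReal.ofReal_le_ofReal ?_
            have h1 : ρ ≤ ‖w‖ := by
              have h2 : ‖x‖ ≤ ‖w‖ + ‖x - w‖ := by
                have := norm_add_le w (x - w)
                rwa [add_sub_cancel] at this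
              have h3 : ‖x - w‖ < ρ := by rw [← dist_eq_norm, dist_comm]; exact hw
              linarith
            exact Real.rpow_le_rpow_of_nonpos hρ h1 (by linarith)
        _ = ENNReal.ofReal (ρ ^ (g - 1)) * (ENNReal.ofReal ρ ^ 2 * (NNReal.pi : ℝ≥0∞)) := by
            rw [setLIntegral_const, Complex.volume_ball]
        _ = ENNReal.ofReal (Real.pi * ρ ^ (1 + g)) := by
            rw [← ENNReal.ofReal_pow hρ.le]
            have : (NNReal.pi : ℝ≥0∞) = ENNReal.ofReal Real.pi := by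
              rw [ENNReal.ofReal, ← NNReal.coe_real_pi, Real.toNNReal_coe]
            rw [this, ← ENNReal.ofReal_mul (by positivity), ← ENNReal.ofReal_mul (by positivity)]
            congr 1
            rw [← Real.rpow_natCast ρ 2, ← mul_assoc, ← Real.rpow_add hρ, mul_comm]
            congr 2
            push_cast; ring
        _ ≤ _ := by
            refine ENNReal.ofReal_le_ofReal ?_
            have : 0 ≤ cst 0 1 * 3 ^ (1 + g) := by positivity
            nlinarith [Real.rpow_pos_of_pos hρ (1 + g)]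
    · have hsub : ball x ρ ⊆ ball 0 (3 * ρ) := by
        intro w hw
        rw [mem_ball_zero_iff]
        have h2 : ‖w‖ ≤ ‖x‖ + ‖w - x‖ := by
          have := norm_add_le x (w - x)
          rwa [add_sub_cancel] at this
        have h3 : ‖w - x‖ < ρ := by rw [← dist_eq_norm]; exact hw
        linarith
      calc ∫⁻ w in ball x ρ, ENNReal.ofReal (‖w‖ ^ (g - 1))
          ≤ ∫⁻ w in ball 0 (3 * ρ), ENNReal.ofReal (‖w‖ ^ (g - 1)) := lintegral_mono_set hsub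
        _ ≤ _ := lint_pow_ball hg.le (by positivity)
        _ ≤ _ := by
            refine ENNReal.ofReal_le_ofReal ?_
            rw [Real.mul_rpow (by norm_num) hρ.le]
            have : 0 ≤ Real.pi * ρ ^ (1 + g) := by positivity
            nlinarith
  calc _ ≤ ENNReal.ofReal C * ENNReal.ofReal ((Real.pi + cst 0 1 * 3 ^ (1 + g)) * ρ ^ (1 + g)) := by
        gcongr
    _ = _ := by rw [← ENNReal.ofReal_mul hC, mul_assoc]

/-! ### bounds of `VV` and `FF` -/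

theorem norm_cc_le (v : R4) : ‖cc v‖ ≤ ‖v‖ := by
  refine (pi_norm_le_iff_of_nonneg (norm_nonneg _)).2 fun i => ?_
  rw [cc_apply, Complex.norm_real]
  exact norm_le_pi_norm v i

theorem norm_VV_le (U : ℂ → R4) (z : ℂ) : ‖VV U z‖ ≤ ‖fderiv ℝ U z‖ := by
  unfold VV
  rw [norm_smul]
  have h1 : ‖fderiv ℝ U z 1‖ ≤ ‖fderiv ℝ U z‖ := by
    simpa using (fderiv ℝ U z).le_opNorm 1
  have h2 : ‖fderiv ℝ U z Complex.I‖ ≤ ‖fderiv ℝ U z‖ := by
    simpa using (fderiv ℝ U z).le_opNorm Complex.I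
  have h3 := norm_sub_le (cc (fderiv ℝ U z 1)) (Complex.I • cc (fderiv ℝ U z Complex.I))
  rw [norm_smul, Complex.norm_I, one_mul] at h3
  have h4 := (norm_cc_le (fderiv ℝ U z 1)).trans h1
  have h5 := (norm_cc_le (fderiv ℝ U z Complex.I)).trans h2
  have h6 : ‖(1 / 2 : ℂ)‖ = 1 / 2 := by norm_num
  rw [h6]
  linarith

theorem VV_re (U : ℂ → R4) (z : ℂ) (i : Fin 4) : fderiv ℝ U z 1 i = 2 * (VV U z i).re := by
  simp [VV]

theorem VV_im (U : ℂ → R4) (z : ℂ) (i : Fin 4) : fderiv ℝ U z Complex.I i = -2 * (VV U z i).im := by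
  simp [VV]

theorem norm_one_le (U : ℂ → R4) (z : ℂ) : ‖fderiv ℝ U z 1‖ ≤ 2 * ‖VV U z‖ := by
  refine (pi_norm_le_iff_of_nonneg (by positivity)).2 fun i => ?_
  rw [VV_re, norm_mul]
  have h1 : ‖(VV U z i).re‖ ≤ ‖VV U z i‖ := Complex.abs_re_le_norm _
  have h2 := norm_le_pi_norm (VV U z) i
  norm_num
  rw [Real.norm_eq_abs] at h1
  linarith

theorem norm_I_le (U : ℂ → R4) (z : ℂ) : ‖fderiv ℝ U z Complex.I‖ ≤ 2 * ‖VV U z‖ := by
  refine (pi_norm_le_iff_of_nonneg (by positivity)).2 fun i => ?_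
  rw [VV_im, norm_mul]
  have h1 : ‖(VV U z i).im‖ ≤ ‖VV U z i‖ := Complex.abs_im_le_norm _
  have h2 := norm_le_pi_norm (VV U z) i
  norm_num
  rw [Real.norm_eq_abs] at h1
  linarith

theorem norm_FF_le {J : R4 → R4 →L[ℝ] R4} (U : ℂ → R4) (z : ℂ) {M : ℝ}
    (hM : ‖fderiv ℝ J (U z)‖ ≤ M) :
    ‖FF J U z‖ ≤ M * ‖fderiv ℝ U z‖ * ‖VV U z‖ := by
  have hM0 : 0 ≤ M := le_trans (norm_nonneg (fderiv ℝ J (U z))) hM
  unfold FF
  rw [norm_smul]
  have h6 : ‖(1 / 4 : ℂ)‖ = 1 / 4 := by norm_num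
  rw [h6]
  set p := fderiv ℝ U z 1 with hp
  set q := fderiv ℝ U z Complex.I with hq
  have hpn : ‖p‖ ≤ 2 * ‖VV U z‖ := norm_one_le U z
  have hqn : ‖q‖ ≤ ‖fderiv ℝ U z‖ := by
    simpa using (fderiv ℝ U z).le_opNorm Complex.I
  have h1 : ‖fderiv ℝ J (U z) q p‖ ≤ M * ‖fderiv ℝ U z‖ * (2 * ‖VV U z‖) := by
    refine ((fderiv ℝ J (U z) q).le_opNorm p).trans ?_
    have := (fderiv ℝ J (U z)).le_opNorm q
    calc ‖fderiv ℝ J (U z) q‖ * ‖p‖ ≤ (‖fderiv ℝ J (U z)‖ * ‖q‖) * ‖p‖ := by gcongr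
      _ ≤ _ := by gcongr
  have h2 : ‖fderiv ℝ J (U z) p q‖ ≤ M * ‖fderiv ℝ U z‖ * (2 * ‖VV U z‖) := by
    refine ((fderiv ℝ J (U z) p).le_opNorm q).trans ?_
    have := (fderiv ℝ J (U z)).le_opNorm p
    calc ‖fderiv ℝ J (U z) p‖ * ‖q‖ ≤ (‖fderiv ℝ J (U z)‖ * ‖p‖) * ‖q‖ := by gcongr
      _ ≤ (M * (2 * ‖VV U z‖)) * ‖fderiv ℝ U z‖ := by gcongr
      _ = _ := by ring
  have h3 := norm_cc_le (fderiv ℝ J (U z) q p - fderiv ℝ J (U z) p q)
  have h4 := norm_sub_le (fderiv ℝ J (U z) q p) (fderiv ℝ J (U z) p q)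
  linarith

end

end Vale.Agent.P247.H734
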