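import Vale.Agent.P247.H734.Punct

/-! P247, LSX (helper734): limit of the gradient at the puncture. -/

set_option linter.unusedSectionVars false

open MeasureTheory Filter Topology Set Metric
open scoped ContDiff ENNReal

namespace Vale.Agent.P247.H734

open Vale.Agent.P247.H74 hiding dbar
open Vale.Agent.P272.CT Vale.Agent.P247.H324

noncomputable section

theorem isOpen_pball (R : ℝ) : IsOpen (ball (0:ℂ) R \ {0}) := isOpen_ball.sdiff isClosed_singleton

theorem restrict_pball (R : ℝ) :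
    (volume : Measure ℂ).restrict (ball 0 R) = volume.restrict (ball 0 R \ {0}) := by
  refine Measure.restrict_congr_set ?_
  exact (sdiff_null_ae_eq_self (by simp)).symm

theorem limit_of_main {E : Type*} [NormedAddCommGroup E] [NormedSpace ℂ E] {V : ℂ → E} {C g r : ℝ}
    (hg : 0 < g) (hr : 0 < r) (hb : ∀ z ∈ ball (0:ℂ) r \ {0}, ‖z • V z‖ ≤ C * ‖z‖ ^ g)
    (h : (∃ r > 0, ∀ z ∈ ball (0:ℂ) r \ {0}, z • V z = 0) ∨ ∃ m : ℕ, ∃ a : E, a ≠ 0 ∧
      ∃ K' s r : ℝ, 0 ≤ K' ∧ 0 < s ∧ 0 < r ∧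
      ∀ z ∈ ball (0:ℂ) r \ {0}, ‖((z - 0) ^ m)⁻¹ • (z • V z) - a‖ ≤ K' * ‖z - 0‖ ^ s) :
    ∃ V₀, Tendsto V (𝓝[≠] 0) (𝓝 V₀) := by
  have hz0 : Tendsto (fun z : ℂ => ‖z‖) (𝓝[≠] 0) (𝓝 0) := by
    have : Tendsto (fun z : ℂ => ‖z‖) (𝓝 0) (𝓝 0) := by
      simpa using (continuous_norm (E := ℂ)).tendsto 0
    exact this.mono_left nhdsWithin_le_nhds
  have hpow : ∀ {s K : ℝ}, 0 < s → Tendsto (fun z : ℂ => K * ‖z‖ ^ s) (𝓝[≠] 0) (𝓝 0) := by
    intro s K hs
    have h1 : ContinuousAt (fun x : ℝ => K * x ^ s) 0 :=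
      (Real.continuousAt_rpow_const 0 s (Or.inr hs.le)).const_mul K
    have h2 := h1.tendsto.comp hz0
    rw [Real.zero_rpow hs.ne', mul_zero] at h2
    exact h2
  have hmem : ∀ {ρ : ℝ}, 0 < ρ → ∀ᶠ z in 𝓝[≠] (0:ℂ), z ∈ ball (0:ℂ) ρ \ {0} := fun {ρ} hρ =>
    sdiff_mem_nhdsWithin_compl (ball_mem_nhds _ hρ) _
  rcases h with ⟨ρ, hρ, h0⟩ | ⟨m, a, ha, K, s, ρ, hK, hs, hρ, h1⟩
  · refine ⟨0, tendsto_const_nhds.congr' ?_⟩
    filter_upwards [hmem hρ] with z hz
    have := h0 z hz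
    exact ((smul_eq_zero.1 this).resolve_left hz.2).symm
  · have hlim : Tendsto (fun z : ℂ => (z ^ m)⁻¹ • (z • V z)) (𝓝[≠] 0) (𝓝 a) := by
      rw [tendsto_iff_norm_sub_tendsto_zero]
      refine squeeze_zero' (Eventually.of_forall fun _ => norm_nonneg _) ?_ (hpow (K := K) hs)
      filter_upwards [hmem hρ] with z hz
      simpa using h1 z hz
    rcases m with _ | m
    · exfalso
      have h2 : Tendsto (fun z : ℂ => z • V z) (𝓝[≠] 0) (𝓝 0) := by
        rw [tendsto_zero_iff_norm_tendsto_zero]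
        refine squeeze_zero' (Eventually.of_forall fun _ => norm_nonneg _) ?_ (hpow (K := C) hg)
        filter_upwards [hmem hr] with z hz using hb z hz
      simp only [pow_zero, inv_one, one_smul] at hlim
      exact ha (tendsto_nhds_unique hlim h2)
    · refine ⟨(0:ℂ) ^ m • a, ?_⟩
      have h3 : Tendsto (fun z : ℂ => z ^ m) (𝓝[≠] 0) (𝓝 (0 ^ m)) :=
        ((continuous_pow m).tendsto 0).mono_left nhdsWithin_le_nhds
      refine (h3.smul hlim).congr' ?_
      filter_upwards [self_mem_nhdsWithin] with z hz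
      have hz' : z ≠ 0 := hz
      rw [smul_smul, smul_smul]
      have : z ^ m * (z ^ (m + 1))⁻¹ * z = 1 := by
        rw [pow_succ]; field_simp
      rw [this, one_smul]

theorem VV_limit {J : R4 → R4 →L[ℝ] R4} (hJ : ContDiff ℝ ∞ J) (hJ2 : ∀ x u, J x (J x u) = -u)
    {U : ℂ → R4} {r C g : ℝ} (hr : 0 < r) (hg : 0 < g) (hg1 : g ≤ 1)
    (hc : ContinuousOn U (ball 0 r)) (h1 : ContDiffOn ℝ 1 U (ball 0 r \ {0}))
    (hb : ∀ z ∈ ball (0:ℂ) r \ {0}, ‖fderiv ℝ U z‖ ≤ C * ‖z‖ ^ (g - 1))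
    (hJU : ∀ z ∈ ball (0:ℂ) r \ {0}, fderiv ℝ U z Complex.I = J (U z) (fderiv ℝ U z 1)) :
    ∃ V₀, Tendsto (VV U) (𝓝[≠] 0) (𝓝 V₀) := by
  set R : ℝ := r / 2 with hR
  have hR0 : 0 < R := by positivity
  have hRr : closedBall (0:ℂ) R ⊆ ball 0 r := closedBall_subset_ball (by rw [hR]; linarith)
  have hsub : ball (0:ℂ) R \ {0} ⊆ ball 0 r \ {0} := by
    rintro z ⟨hz, hz0⟩
    exact ⟨hRr (ball_subset_closedBall hz), hz0⟩
  obtain ⟨M, hM⟩ : ∃ M, ∀ z ∈ closedBall (0:ℂ) R, ‖fderiv ℝ J (U z)‖ ≤ M := by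
    have h2 : ContinuousOn (fun z => ‖fderiv ℝ J (U z)‖) (closedBall (0:ℂ) R) :=
      ((hJ.continuous_fderiv (by simp)).comp_continuousOn (hc.mono hRr)).norm
    obtain ⟨M, hM⟩ := (isCompact_closedBall (0:ℂ) R).bddAbove_image h2
    exact ⟨M, fun z hz => hM (mem_image_of_mem _ hz)⟩
  have hM0 : 0 ≤ M := le_trans (norm_nonneg (fderiv ℝ J (U 0))) (hM 0 (mem_closedBall_self hR0.le))
  have hb' : ∀ z ∈ ball (0:ℂ) r \ {0}, ‖fderiv ℝ U z‖ ≤ |C| * ‖z‖ ^ (g - 1) := fun z hz =>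
    (hb z hz).trans (mul_le_mul_of_nonneg_right (le_abs_self C) (by positivity))
  obtain ⟨K, hK0, hK⟩ := mor_pow (C := M * |C|) hg hg1 (by positivity) R
  have hcV : ContinuousOn (VV U) (ball 0 R \ {0}) :=
    (cont_VV (isOpen_pball r) h1).mono hsub
  have hcF : ContinuousOn (FF J U) (ball 0 R \ {0}) :=
    (cont_FF hJ (isOpen_pball r) h1).mono hsub
  have hzV : ∀ z ∈ ball (0:ℂ) R \ {0}, ‖z • VV U z‖ ≤ |C| * ‖z‖ ^ g := by
    intro z hz
    have hz0 : 0 < ‖z‖ := norm_pos_iff.2 hz.2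
    rw [norm_smul]
    calc ‖z‖ * ‖VV U z‖ ≤ ‖z‖ * (|C| * ‖z‖ ^ (g - 1)) := by
          gcongr
          exact (norm_VV_le U z).trans (hb' z (hsub hz))
      _ = |C| * (‖z‖ ^ (1:ℝ) * ‖z‖ ^ (g - 1)) := by rw [Real.rpow_one]; ring
      _ = |C| * ‖z‖ ^ g := by rw [← Real.rpow_add hz0]; congr 2; ring
  have hmain := spm_local (u := fun z => z • VV U z) (q := fun z => z • FF J U z)
    (G := fun w => ENNReal.ofReal (M * |C| * ‖w‖ ^ (g - 1))) (c := 0) (R := R) (K := K) (ε := g)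
    (A := |C| * R ^ g) hR0 hg hK0 (by fun_prop) hK (continuousOn_id.smul hcV) ?_ ?_ ?_ ?_
  · exact limit_of_main hg hR0 hzV hmain
  · intro z hz
    refine (hzV z hz).trans ?_
    have h3 : ‖z‖ ≤ R := (mem_ball_zero_iff.1 hz.1).le
    gcongr
  · rw [restrict_pball]
    exact (continuousOn_id.smul hcF).aestronglyMeasurable (isOpen_pball R).measurableSet
  · rw [restrict_pball]
    filter_upwards [ae_restrict_mem (isOpen_pball R).measurableSet] with z hz
    have h3 : ‖FF J U z‖ ≤ M * |C| * ‖z‖ ^ (g - 1) * ‖VV U z‖ := by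
      refine (norm_FF_le U z (hM z (ball_subset_closedBall hz.1))).trans ?_
      have h4 := hb' z (hsub hz)
      calc M * ‖fderiv ℝ U z‖ * ‖VV U z‖ ≤ M * (|C| * ‖z‖ ^ (g - 1)) * ‖VV U z‖ := by gcongr
        _ = _ := by ring
    simp only [enorm_smul]
    have h5 : ‖FF J U z‖ₑ ≤ ENNReal.ofReal (M * |C| * ‖z‖ ^ (g - 1)) * ‖VV U z‖ₑ := by
      rw [← ofReal_norm, ← ofReal_norm, ← ENNReal.ofReal_mul (by positivity)]
      exact ENNReal.ofReal_le_ofReal h3
    calc ‖z‖ₑ * ‖FF J U z‖ₑ ≤ ‖z‖ₑ * (ENNReal.ofReal (M * |C| * ‖z‖ ^ (g - 1)) * ‖VV U z‖ₑ) := by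
          gcongr
      _ = _ := by ring
  · have h3 : WDb (ball 0 R \ {0}) (VV U) (FF J U) :=
      wdb_VV hJ hJ2 (isOpen_pball R) (h1.mono hsub) fun z hz => hJU z (hsub hz)
    exact Vale.Agent.P247.H324.WDb.holo_smul (isOpen_pball R) h3 (f := fun z => z) differentiableOn_id

/-- a map of a ball, differentiable off the centre with a limit of the derivative -/
theorem hasFDerivAt_punct {F : Type*} [NormedAddCommGroup F] [NormedSpace ℝ F] {U : ℂ → F} {r : ℝ}
    (hr : 0 < r) (hc : ContinuousOn U (ball 0 r)) (hd : ∀ z ∈ ball (0:ℂ) r \ {0}, DifferentiableAt ℝ U z)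
    {L : ℂ →L[ℝ] F} (hL : Tendsto (fderiv ℝ U) (𝓝[≠] 0) (𝓝 L)) : HasFDerivAt U L 0 := by
  have hhalf : ∀ a : ℝ, a ≠ 0 → HasFDerivWithinAt U L
      (closure (ball (0:ℂ) (r/2) ∩ {z : ℂ | 0 < a * z.re})) 0 := by
    intro a ha
    have hlin : IsLinearMap ℝ fun z : ℂ => a * z.re :=
      ⟨fun x y => by simp [mul_add], fun c x => by simp; ring⟩
    have hopen : IsOpen {z : ℂ | 0 < a * z.re} :=
      isOpen_lt continuous_const (by fun_prop)
    refine hasFDerivWithinAt_closure_of_tendsto_fderiv (s := ball (0:ℂ) (r/2) ∩ {z : ℂ | 0 < a * z.re})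
      ?_ ((convex_ball _ _).inter (convex_halfSpace_gt hlin 0)) (isOpen_ball.inter hopen) ?_ ?_
    · rintro z ⟨hz1, hz2⟩
      refine (hd z ⟨ball_subset_ball (by linarith) hz1, ?_⟩).differentiableWithinAt
      rintro rfl
      simp at hz2
    · intro z hz
      have h1 : z ∈ closedBall (0:ℂ) (r/2) :=
        closure_minimal (inter_subset_left.trans ball_subset_closedBall) isClosed_closedBall hz
      have h2 : z ∈ ball (0:ℂ) r := closedBall_subset_ball (by linarith) h1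
      exact (hc.continuousAt (isOpen_ball.mem_nhds h2)).continuousWithinAt
    · refine hL.mono_left (nhdsWithin_mono _ ?_)
      rintro z ⟨-, hz2⟩
      rintro rfl
      simp at hz2
  have h1 := hhalf 1 one_ne_zero
  have h2 := hhalf (-1) (by norm_num)
  have h3 := h1.union h2
  refine h3.hasFDerivAt ?_
  have hsub : ball (0:ℂ) (r/2) ⊆ closure (ball (0:ℂ) (r/2) ∩ {z : ℂ | 0 < 1 * z.re}) ∪
      closure (ball (0:ℂ) (r/2) ∩ {z : ℂ | 0 < (-1) * z.re}) := by
    intro z hz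
    rw [← closure_union, ← inter_union_distrib_left]
    have hdense : Dense ({z : ℂ | 0 < 1 * z.re} ∪ {z : ℂ | 0 < (-1) * z.re}) := by
      have h4 : ({z : ℂ | 0 < 1 * z.re} ∪ {z : ℂ | 0 < (-1) * z.re}) = {z : ℂ | z.re ≠ 0} := by
        ext w
        simp only [mem_union, mem_ofPred_eq]
        constructor
        · rintro (h | h) <;> intro h5 <;> rw [h5] at h <;> simp at h
        · intro h
          rcases lt_or_gt_of_ne h with h5 | h5
          · right; linarith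
          · left; linarith
      rw [h4, Metric.dense_iff]
      intro w ε hε
      by_cases hw : w.re = 0
      · refine ⟨w + (ε/2 : ℝ), ?_, ?_⟩
        · rw [mem_ball, dist_eq_norm, add_sub_cancel_left, Complex.norm_real,
            Real.norm_of_nonneg (by positivity)]
          linarith
        · simp only [mem_ofPred_eq, Complex.add_re, Complex.ofReal_re, hw]
          positivity
      · exact ⟨w, mem_ball_self hε, hw⟩
    have h5 := hdense.open_subset_closure_inter (isOpen_ball (x := (0:ℂ)) (ε := r/2))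
    exact h5 hz
  exact mem_of_superset (ball_mem_nhds _ (by positivity)) hsub

theorem clm_ext_CR {F : Type*} [NormedAddCommGroup F] [NormedSpace ℝ F] (L : ℂ →L[ℝ] F) :
    L = Complex.reCLM.smulRight (L 1) + Complex.imCLM.smulRight (L Complex.I) := by
  ext z
  have h : z = z.re • (1:ℂ) + z.im • Complex.I := by
    apply Complex.ext <;> simp
  conv_lhs => rw [h, map_add, map_smul, map_smul]
  simp

/-- the gradient in terms of `VV` -/
def gr (v : Fin 4 → ℂ) : ℂ →L[ℝ] R4 :=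
  Complex.reCLM.smulRight (fun i => 2 * (v i).re) + Complex.imCLM.smulRight (fun i => -2 * (v i).im)

theorem fderiv_eq_gr (U : ℂ → R4) (z : ℂ) : fderiv ℝ U z = gr (VV U z) := by
  rw [clm_ext_CR (fderiv ℝ U z), gr]
  congr 2
  · funext i; exact VV_re U z i
  · funext i; exact VV_im U z i

theorem continuous_gr : Continuous gr := by
  unfold gr
  have h1 : Continuous fun v : Fin 4 → ℂ => (fun i => 2 * (v i).re : R4) := by fun_prop
  have h2 : Continuous fun v : Fin 4 → ℂ => (fun i => -2 * (v i).im : R4) := by fun_prop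
  exact ((ContinuousLinearMap.smulRightL ℝ ℂ R4 Complex.reCLM).continuous.comp h1).add
    ((ContinuousLinearMap.smulRightL ℝ ℂ R4 Complex.imCLM).continuous.comp h2)

/-- **`U` is `C¹` and `J`-holomorphic on the whole ball** -/
theorem c1_ball {J : R4 → R4 →L[ℝ] R4} (hJ : ContDiff ℝ ∞ J) (hJ2 : ∀ x u, J x (J x u) = -u)
    {U : ℂ → R4} {r C g : ℝ} (hr : 0 < r) (hg : 0 < g) (hg1 : g ≤ 1)
    (hc : ContinuousOn U (ball 0 r)) (h1 : ContDiffOn ℝ 1 U (ball 0 r \ {0}))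
    (hb : ∀ z ∈ ball (0:ℂ) r \ {0}, ‖fderiv ℝ U z‖ ≤ C * ‖z‖ ^ (g - 1))
    (hJU : ∀ z ∈ ball (0:ℂ) r \ {0}, fderiv ℝ U z Complex.I = J (U z) (fderiv ℝ U z 1)) :
    ContDiffOn ℝ 1 U (ball 0 r) ∧
      ∀ z ∈ ball (0:ℂ) r, fderiv ℝ U z Complex.I = J (U z) (fderiv ℝ U z 1) := by
  obtain ⟨V₀, hV₀⟩ := VV_limit hJ hJ2 hr hg hg1 hc h1 hb hJU
  have hdiff : ∀ z ∈ ball (0:ℂ) r \ {0}, DifferentiableAt ℝ U z := fun z hz =>
    (h1.differentiableOn (by simp)).differentiableAt ((isOpen_pball r).mem_nhds hz)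
  have hlim : Tendsto (fderiv ℝ U) (𝓝[≠] 0) (𝓝 (gr V₀)) := by
    have h2 : fderiv ℝ U = fun z => gr (VV U z) := funext fun z => fderiv_eq_gr U z
    rw [h2]
    exact (continuous_gr.tendsto V₀).comp hV₀
  have h0 : HasFDerivAt U (gr V₀) 0 := hasFDerivAt_punct hr hc hdiff hlim
  have hcont : ContinuousOn (fderiv ℝ U) (ball 0 r) := by
    intro z hz
    by_cases hz0 : z = 0
    · subst hz0
      refine ContinuousAt.continuousWithinAt ?_
      rw [continuousAt_iff_punctured_nhds, h0.fderiv]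
      exact hlim
    · exact ((h1.continuousOn_fderiv_of_isOpen (isOpen_pball r) le_rfl).continuousAt
        ((isOpen_pball r).mem_nhds ⟨hz, hz0⟩)).continuousWithinAt
  have hdiff' : DifferentiableOn ℝ U (ball 0 r) := by
    intro z hz
    by_cases hz0 : z = 0
    · subst hz0; exact h0.differentiableAt.differentiableWithinAt
    · exact (hdiff z ⟨hz, hz0⟩).differentiableWithinAt
  have hC1 : ContDiffOn ℝ 1 U (ball 0 r) := by
    rw [show (1 : WithTop ℕ∞) = 0 + 1 by norm_num,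
      contDiffOn_succ_iff_fderiv_of_isOpen isOpen_ball]
    exact ⟨hdiff', by simp, contDiffOn_zero.2 hcont⟩
  refine ⟨hC1, fun z hz => ?_⟩
  by_cases hz0 : z = 0
  · subst hz0
    have hl1 : Tendsto (fun z => fderiv ℝ U z Complex.I) (𝓝[≠] 0) (𝓝 (fderiv ℝ U 0 Complex.I)) :=
      ((hcont.clm_apply continuousOn_const).continuousAt (isOpen_ball.mem_nhds hz)).tendsto.mono_left
        nhdsWithin_le_nhds
    have hl2 : Tendsto (fun z => J (U z) (fderiv ℝ U z 1)) (𝓝[≠] 0)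
        (𝓝 (J (U 0) (fderiv ℝ U 0 1))) :=
      (((hJ.continuous.comp_continuousOn hc).clm_apply
        (hcont.clm_apply continuousOn_const)).continuousAt (isOpen_ball.mem_nhds hz)).tendsto.mono_left
        nhdsWithin_le_nhds
    refine tendsto_nhds_unique hl1 (hl2.congr' ?_)
    have : ball (0:ℂ) r \ {0} ∈ 𝓝[≠] (0:ℂ) := sdiff_mem_nhdsWithin_compl (ball_mem_nhds _ hr) _
    filter_upwards [this] with w hw using (hJU w hw).symm
  · exact hJU z ⟨hz, hz0⟩

end

end Vale.Agent.P247.H734
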