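import Vale.Agent.P247.H734.Par3
import Vale.Agent.P247.H734.Punct2
import Vale.Agent.P272.K.R.Final

/-! P247, LSX (helper734): Hölder regularity for the weak `∂̄` equation. -/

set_option linter.unusedSectionVars false

open MeasureTheory Filter Topology Set Metric
open scoped ContDiff Convolution

namespace Vale.Agent.P247.H734

open Vale.Agent.P247.H74 hiding dbar
open Vale.Agent.P272.CT Vale.Agent.P247.H324 Vale.Agent.P272.K.LIN Vale.Agent.P272.K.R

noncomputable section

section Aff

variable {E : Type} [NormedAddCommGroup E] [NormedSpace ℝ E]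

theorem lhol_aff {F : Type} [NormedAddCommGroup F] {α : ℝ} (hα : 0 ≤ α) {U U' : Set E}
    (hU : IsOpen U) {f : E → F} {s : ℝ}
    {b : E} (hm : ∀ x ∈ U, s • x + b ∈ U') (hf : LHol α f U') : LHol α (fun x => f (s • x + b)) U := by
  intro x hx
  obtain ⟨r, hr, hb, C, hC, h⟩ := hf _ (hm x hx)
  obtain ⟨r', hr', hb'⟩ := Metric.isOpen_iff.1 hU x hx
  have hs : 0 < |s| + 1 := by positivity
  refine ⟨min r' (r / (|s| + 1)), lt_min hr' (by positivity),
    (ball_subset_ball (min_le_left _ _)).trans hb', C * |s| ^ α, by positivity,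
    fun y hy z hz => ?_⟩
  have hmem : ∀ y ∈ ball x (min r' (r / (|s| + 1))), s • y + b ∈ ball (s • x + b) r := by
    intro y hy
    rw [mem_ball, dist_eq_norm, add_sub_add_right_eq_sub, ← smul_sub, norm_smul, Real.norm_eq_abs]
    have h1 : ‖y - x‖ < r / (|s| + 1) := by
      rw [← dist_eq_norm]
      exact (mem_ball.1 hy).trans_le (min_le_right _ _)
    rw [lt_div_iff₀ hs] at h1
    nlinarith [abs_nonneg s, norm_nonneg (y - x)]
  refine (h _ (hmem y hy) _ (hmem z hz)).trans (le_of_eq ?_)
  rw [add_sub_add_right_eq_sub, ← smul_sub, norm_smul, Real.norm_eq_abs,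
    Real.mul_rpow (abs_nonneg s) (norm_nonneg _), mul_assoc]

theorem hc_aff {α : ℝ} (hα : 0 < α) (hα1 : α ≤ 1) {U U' : Set E} (hU : IsOpen U) {s : ℝ} {b : E}
    (hm : ∀ x ∈ U, s • x + b ∈ U') (k : ℕ) : ∀ {F : Type} [NormedAddCommGroup F] [NormedSpace ℝ F]
    {f : E → F}, HC α U' k f → HC α U k (fun x => f (s • x + b)) := by
  induction k with
  | zero => intro F _ _ f hf; exact lhol_aff hα.le hU hm hf
  | succ k ih =>
    intro F _ _ f hf
    have hd : ∀ x ∈ U, HasFDerivAt (fun x => f (s • x + b)) (s • fderiv ℝ f (s • x + b)) x := by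
      intro x hx
      have h1 : HasFDerivAt (fun x : E => s • x + b) (s • ContinuousLinearMap.id ℝ E) x :=
        ((hasFDerivAt_id x).const_smul s).add_const b
      have h2 := (hf.1 _ (hm x hx)).hasFDerivAt.comp x h1
      refine h2.congr_fderiv ?_
      ext v
      simp
    refine ⟨fun x hx => (hd x hx).differentiableAt, ?_⟩
    refine HC.congr hU (f := fun x => s • fderiv ℝ f (s • x + b)) ?_ fun x hx => (hd x hx).fderiv.symm
    exact (ih hf.2).clm hα hα1 hU (s • ContinuousLinearMap.id ℝ (E →L[ℝ] F))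

end Aff

/-- `V` is Hölder when `∂̄V` is continuous -/
theorem lhol_of_wdb {E : Type} [NormedAddCommGroup E] [NormedSpace ℂ E] [CompleteSpace E]
    {V F : ℂ → E} {Ω : Set ℂ} (hΩ : IsOpen Ω) (hV : ContinuousOn V Ω) (hF : ContinuousOn F Ω)
    (h : WDb Ω V F) {a : ℝ} (ha0 : 0 < a) (ha1 : a < 1) : LHol a V Ω := by
  intro c hc
  obtain ⟨ρ0, hρ0, hb0⟩ := Metric.isOpen_iff.1 hΩ c hc
  set ρ := ρ0 / 2 with hρ
  have hρp : 0 < ρ := by positivity
  have hcb : closedBall c ρ ⊆ Ω := (closedBall_subset_ball (by rw [hρ]; linarith)).trans hb0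
  have hmaps : MapsTo (sc c ρ) (closedBall 0 1) (closedBall c ρ) := by
    intro z hz
    rw [mem_closedBall_zero_iff] at hz
    rw [mem_closedBall, dist_eq_norm, sc, add_sub_cancel_left, norm_smul, Real.norm_of_nonneg hρp.le]
    nlinarith
  have hcont : Continuous (sc c ρ) := by unfold sc; fun_prop
  set V' : ℂ → E := fun z => V (sc c ρ z) with hV'
  set F' : ℂ → E := fun z => (ρ:ℂ) • F (sc c ρ z) with hF'
  have cV : ContinuousOn V' (closedBall 0 1) :=
    (hV.mono hcb).comp hcont.continuousOn hmaps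
  have cF : ContinuousOn F' (closedBall 0 1) :=
    ContinuousOn.const_smul ((hF.mono hcb).comp hcont.continuousOn hmaps) _
  obtain ⟨B, hB⟩ := (isCompact_closedBall (0:ℂ) 1).exists_bound_of_continuousOn cF
  have hw : WDb (ball 0 1) V' F' := Vale.Agent.P247.H324.WDb.scale hρp h
    fun z hz => hcb (hmaps (ball_subset_closedBall hz))
  have hWB : WB 0 B F' := WB.of_continuousOn le_rfl (cF.mono ball_subset_closedBall)
    fun w hw => hB w (ball_subset_closedBall hw)
  have hint : IntegrableOn F' (ball 0 1) :=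
    (cF.integrableOn_compact (isCompact_closedBall _ _)).mono_set ball_subset_closedBall
  have hcau : Continuous (cauT F') := hWB.continuous_cauT le_rfl one_pos
  have h3 : WDb (ball 0 1) (fun z => V' z - cauT F' z) fun _ => 0 := by
    refine (WDb.sub isOpen_ball (cV.mono ball_subset_closedBall) (cF.mono ball_subset_closedBall)
      hcau.continuousOn (cF.mono ball_subset_closedBall) hw (wdb_cauT hint)).congr
      (fun _ _ => rfl) fun z _ => ?_
    simp
  have h4 : DifferentiableOn ℂ (fun z => V' z - cauT F' z) (ball 0 1) :=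
    h3.holo isOpen_ball ((cV.mono ball_subset_closedBall).sub hcau.continuousOn)
  set H : ℂ → E := fun z => V' z - cauT F' z with hH
  have h5 : ContDiffOn ℝ 1 H (ball 0 1) :=
    ((h4.contDiffOn (n := 1) isOpen_ball).restrict_scalars ℝ)
  have h6 : LHol a H (ball 0 1) := by
    refine lHol_of_fderiv ha1.le isOpen_ball (fun x hx => (h5.differentiableOn (by simp)).differentiableAt
      (isOpen_ball.mem_nhds hx)) (h5.continuousOn_fderiv_of_isOpen isOpen_ball le_rfl)
  obtain ⟨r, hr, hrb, C, hC, hHol⟩ := h6 0 (mem_ball_self one_pos)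
  have hr1 : ball (0:ℂ) r ⊆ ball 0 1 := hrb
  have hBn := hWB.nonneg
  have hcs := cst_nonneg 0 (1 + a)
  have hpi := Real.pi_pos
  have h7 : Hol a (C + 4 * cst 0 (1 + a) / Real.pi * B) V' (ball 0 r) := by
    intro x hx y hy
    have e1 := hHol x hx y hy
    have e2 := hWB.cauT_holder le_rfl ha0.le (by linarith) x y
    have e3 : V' x - V' y = (H x - H y) + (cauT F' x - cauT F' y) := by
      simp only [hH]; abel
    rw [e3, add_mul]
    exact (norm_add_le _ _).trans (add_le_add e1 e2)
  refine ⟨min ρ (ρ * r), lt_min hρp (by positivity),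
    (ball_subset_ball (min_le_left _ _)).trans (ball_subset_closedBall.trans hcb),
    (C + 4 * cst 0 (1 + a) / Real.pi * B) * (ρ⁻¹) ^ a, by positivity, fun x hx y hy => ?_⟩
  have hback : ∀ x ∈ ball c (min ρ (ρ * r)), ρ⁻¹ • (x - c) ∈ ball (0:ℂ) r ∧
      sc c ρ (ρ⁻¹ • (x - c)) = x := by
    intro x hx
    constructor
    · rw [mem_ball_zero_iff, norm_smul, norm_inv, Real.norm_of_nonneg hρp.le,
        inv_mul_lt_iff₀ hρp, ← dist_eq_norm]
      exact (mem_ball.1 hx).trans_le (min_le_right _ _)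
    · rw [sc, smul_inv_smul₀ hρp.ne']; abel
  obtain ⟨x1, x2⟩ := hback x hx
  obtain ⟨y1, y2⟩ := hback y hy
  have h8 := h7 _ x1 _ y1
  simp only [hV', x2, y2] at h8
  refine h8.trans (le_of_eq ?_)
  rw [← smul_sub, sub_sub_sub_cancel_right, norm_smul, norm_inv, Real.norm_of_nonneg hρp.le,
    Real.mul_rpow (by positivity) (norm_nonneg _), mul_assoc]

end

end Vale.Agent.P247.H734
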