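import Vale.Agent.P247.H734.Reg

/-! P247, LSX (helper734): `∂̄V = F`, `F` of class `C^{k,a}` ⇒ `V` of class `C^{k+1,a}`. -/

set_option linter.unusedSectionVars false

open MeasureTheory Filter Topology Set Metric
open scoped ContDiff Convolution

namespace Vale.Agent.P247.H734

open Vale.Agent.P247.H74 hiding dbar
open Vale.Agent.P272.CT Vale.Agent.P247.H324 Vale.Agent.P272.K.LIN Vale.Agent.P272.K.R

noncomputable section

theorem lhol_of_hol_univ {E F : Type*} [NormedAddCommGroup E] [NormedAddCommGroup F] {a C : ℝ} (hC : 0 ≤ C)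
    {f : E → F} {U : Set E} (hU : IsOpen U) (h : Hol a C f univ) : LHol a f U := by
  intro x hx
  obtain ⟨r, hr, hb⟩ := Metric.isOpen_iff.1 hU x hx
  exact ⟨r, hr, hb, C, hC, h.mono (subset_univ _)⟩

/-- base step: `F` Hölder ⇒ `V` is `C^{1,a}` -/
theorem hc1_of_wdb {V F : ℂ → ℂ} {Ω : Set ℂ} (hΩ : IsOpen Ω) (hV : ContinuousOn V Ω) {a : ℝ}
    (ha0 : 0 < a) (ha1 : a < 1) (hF : LHol a F Ω) (h : WDb Ω V F) : HC a Ω 1 V := by
  refine HC.of_local fun c hc => ?_
  obtain ⟨ρ0, hρ0, hb0, C, hC, hHol⟩ := hF c hc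
  set ρ := ρ0 / 2 with hρ
  have hρp : 0 < ρ := by positivity
  have hmaps : ∀ z ∈ ball (0:ℂ) 2, sc c ρ z ∈ ball c ρ0 := by
    intro z hz
    rw [mem_ball_zero_iff] at hz
    rw [mem_ball, dist_eq_norm, sc, add_sub_cancel_left, norm_smul, Real.norm_of_nonneg hρp.le]
    have : ρ * ‖z‖ < ρ * 2 := by gcongr
    linarith
  have hcont : Continuous (sc c ρ) := by unfold sc; fun_prop
  set V' : ℂ → ℂ := fun z => V (sc c ρ z) with hV'
  set F' : ℂ → ℂ := fun z => (ρ:ℂ) • F (sc c ρ z) with hF'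
  have hC1 : 0 ≤ ρ * (C * ρ ^ a) := by positivity
  have hF'H : Hol a (ρ * (C * ρ ^ a)) F' (ball 0 2) := by
    intro x hx y hy
    have h1 := hHol _ (hmaps x hx) _ (hmaps y hy)
    have h2 : sc c ρ x - sc c ρ y = ρ • (x - y) := by simp only [sc, smul_sub]; abel
    rw [h2, norm_smul, Real.norm_of_nonneg hρp.le, Real.mul_rpow hρp.le (norm_nonneg _)] at h1
    simp only [hF']
    rw [← smul_sub, norm_smul, Complex.norm_real, Real.norm_of_nonneg hρp.le]
    calc _ ≤ ρ * (C * (ρ ^ a * ‖x - y‖ ^ a)) := by gcongr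
      _ = _ := by ring
  have hF'b := Hol.norm_le ha0.le hC1 hF'H
  obtain ⟨M, K, hK, hchi⟩ := exists_hb (E := ℂ) ha0 ha1.le (chi_smooth.of_le (by exact_mod_cast le_top)) chi_comp
  have hM : 0 ≤ M := (norm_nonneg _).trans (hchi.sup 0)
  set B0 := ‖F' 0‖ + ρ * (C * ρ ^ a) * 2 ^ a with hB0
  have hB0p : 0 ≤ B0 := by positivity
  set G : ℂ → ℂ := fun z => chi z • F' z with hG
  set K' := ‖(ContinuousLinearMap.lsmul ℝ ℝ : ℝ →L[ℝ] ℂ →L[ℝ] ℂ)‖ * (M * (ρ * (C * ρ ^ a)) + B0 * K) with hK'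
  have hK'p : 0 ≤ K' := by positivity
  have hG1 : Hol a K' G (ball 0 2) :=
    Hol.bilin (ContinuousLinearMap.lsmul ℝ ℝ : ℝ →L[ℝ] ℂ →L[ℝ] ℂ)
      (fun x _ y _ => hchi.hol x y) hF'H (fun x _ => hchi.sup x) hF'b
  have hG0 : ∀ x, x ∉ closedBall (0:ℂ) 1 → G x = 0 := by
    intro x hx
    have h1 : chi x = 0 := image_eq_zero_of_notMem_tsupport fun h => hx (ball_subset_closedBall (chi_supp h))
    simp only [hG, h1, zero_smul]
  have hGH : Hol a K' G univ := Hol.extend ha0.le hK'p (ρ := 1) (r := 2) (by norm_num) hG1 hG0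
  have hGb : ∀ x, ‖G x‖ ≤ M * B0 := by
    intro x
    by_cases hx : x ∈ ball (0:ℂ) 2
    · simp only [hG]
      rw [norm_smul]
      exact mul_le_mul (hchi.sup x) (hF'b x hx) (norm_nonneg _) hM
    · rw [hG0 x fun h => hx (closedBall_subset_ball (by norm_num) h), norm_zero]
      positivity
  have hHB : HB a G (M * B0) K' := ⟨hGb, fun x y => hGH x (mem_univ _) y (mem_univ _)⟩
  obtain ⟨M0, hM0, hP, -⟩ := PP_main ha0 ha1
  obtain ⟨p1, p2, p3, p4⟩ := hP G _ _ hK'p hHB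
  have hsub : ball (0:ℂ) (1/2) ⊆ ball 0 2 := ball_subset_ball (by norm_num)
  have cF0 : ContinuousOn F Ω := hF.continuousOn ha0
  have cV : ContinuousOn V' (ball 0 (1/2)) :=
    hV.comp hcont.continuousOn fun z hz => hb0 (hmaps z (hsub hz))
  have cF : ContinuousOn F' (ball 0 (1/2)) :=
    (show ContinuousOn (fun z => F (sc c ρ z)) (ball 0 (1/2)) from
      cF0.comp hcont.continuousOn fun z hz => hb0 (hmaps z (hsub hz))).const_smul (ρ:ℂ)
  have w1 : WDb (ball 0 (1/2)) V' F' := Vale.Agent.P247.H324.WDb.scale hρp h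
    fun z hz => hb0 (hmaps z (hsub hz))
  have w2 : WDb (ball 0 (1/2)) (PP G) F' := by
    refine (WDb.of_contDiffOn isOpen_ball p1.contDiffOn).congr (fun _ _ => rfl) fun z hz => ?_
    have h1 := p4 z hz
    have h2 : chi z = 1 := (chi_one (ball_subset_closedBall hz)).eq_of_nhds
    have h3 : dbarV (PP G) z = dbar (PP G) z := by
      simp only [dbarV, dbar, smul_eq_mul]
    rw [h3, h1]
    simp only [hG, h2, one_smul]
  have w3 : WDb (ball 0 (1/2)) (fun z => V' z - PP G z) fun _ => 0 := by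
    refine (WDb.sub isOpen_ball cV cF p1.continuous.continuousOn cF w1 w2).congr
      (fun _ _ => rfl) fun z _ => ?_
    simp
  have h4 : DifferentiableOn ℂ (fun z => V' z - PP G z) (ball 0 (1/2)) :=
    w3.holo isOpen_ball (cV.sub p1.continuous.continuousOn)
  have h5 : HC a (ball (0:ℂ) (1/2)) 1 (fun z => V' z - PP G z) := by
    refine HC.of_contDiff ha0 ha1.le isOpen_ball fun x hx => ?_
    exact ((h4.contDiffOn (n := ((1 + 1 : ℕ) : WithTop ℕ∞)) isOpen_ball).restrict_scalars ℝ).contDiffAt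
      (isOpen_ball.mem_nhds hx)
  have hM1 : 0 ≤ M0 * (M * B0 + K') := by positivity
  have h6 : HC a (ball (0:ℂ) (1/2)) 1 (PP G) :=
    ⟨fun x _ => (p1.differentiable (by simp)).differentiableAt,
      lhol_of_hol_univ hM1 isOpen_ball fun x _ y _ => p3.hol x y⟩
  have h7 : HC a (ball (0:ℂ) (1/2)) 1 V' :=
    (h5.add isOpen_ball h6).congr isOpen_ball fun x _ => by simp
  have hback : ∀ x ∈ ball c (ρ/2), ρ⁻¹ • x + (-(ρ⁻¹ • c)) ∈ ball (0:ℂ) (1/2) ∧
      sc c ρ (ρ⁻¹ • x + (-(ρ⁻¹ • c))) = x := by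
    intro x hx
    rw [← sub_eq_add_neg, ← smul_sub]
    constructor
    · rw [mem_ball_zero_iff, norm_smul, norm_inv, Real.norm_of_nonneg hρp.le,
        inv_mul_lt_iff₀ hρp, ← dist_eq_norm]
      have := mem_ball.1 hx
      linarith
    · rw [sc, smul_inv_smul₀ hρp.ne']; abel
  refine ⟨ρ/2, by positivity, (ball_subset_ball (by linarith)).trans hb0, ?_⟩
  have h8 := hc_aff ha0 ha1.le (U := ball c (ρ/2)) isOpen_ball (s := ρ⁻¹) (b := -(ρ⁻¹ • c))
    (fun x hx => (hback x hx).1) 1 h7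
  exact h8.congr isOpen_ball fun x hx => by simp only [hV', (hback x hx).2]

/-- integration by parts -/
theorem ibp_loc {u ψ : ℂ → ℂ} {Ω : Set ℂ} (hΩ : IsOpen Ω) (hu : ContDiffOn ℝ 1 u Ω)
    (hψ : ContDiff ℝ 1 ψ) (hc : HasCompactSupport ψ) (hs : tsupport ψ ⊆ Ω) (v : ℂ) :
    ∫ z, ψ z • fderiv ℝ u z v = - ∫ z, fderiv ℝ ψ z v • u z := by
  have hu0 : ContinuousOn u Ω := hu.continuousOn
  have hd : ContinuousOn (fderiv ℝ u) Ω := hu.continuousOn_fderiv_of_isOpen hΩ (le_refl _)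
  have hψd : Continuous (fderiv ℝ ψ) := hψ.continuous_fderiv (by simp)
  have hts : tsupport (fun z => fderiv ℝ ψ z v) ⊆ tsupport ψ := by
    refine closure_minimal ?_ (isClosed_tsupport ψ)
    intro z hz
    by_contra hcon
    refine hz ?_
    have h1 : fderiv ℝ ψ z = 0 := by
      by_contra h2
      exact hcon (support_fderiv_subset ℝ h2)
    simp only [h1]
    rfl
  refine integral_smul_fderiv_eq_neg_fderiv_smul_of_integrable (μ := (volume : Measure ℂ))
      (𝕜 := ℂ) (f := ψ) (g := u) (v := v) ?_ ?_ ?_ ?_ ?_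
  · exact integrable_smul_of_tsupport hΩ (hψd.clm_apply continuous_const)
      (hc.of_isClosed_subset (isClosed_tsupport _) hts) hu0 (hts.trans hs)
  · exact integrable_smul_of_tsupport hΩ hψ.continuous hc
      (hd.clm_apply continuousOn_const) hs
  · exact integrable_smul_of_tsupport hΩ hψ.continuous hc hu0 hs
  · exact fun z _ => (hψ.differentiable (by simp)).differentiableAt
  · exact fun z hz => (hu.differentiableOn (by simp)).differentiableAt (hΩ.mem_nhds (hs hz))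

theorem dbar_fderiv {η : ℂ → ℂ} (hη : ContDiff ℝ ∞ η) (v z : ℂ) :
    dbar (fun z => fderiv ℝ η z v) z = fderiv ℝ (dbar η) z v := by
  have h1 : ContDiff ℝ ∞ (fderiv ℝ η) := hη.fderiv_right (by simp)
  have h2 : DifferentiableAt ℝ (fderiv ℝ η) z := (h1.differentiable (by simp)).differentiableAt
  have h3 : ∀ w : ℂ, HasFDerivAt (fun z => fderiv ℝ η z w)
      ((ContinuousLinearMap.apply ℝ ℂ w).comp (fderiv ℝ (fderiv ℝ η) z)) z := fun w =>
    (ContinuousLinearMap.apply ℝ ℂ w).hasFDerivAt.comp z h2.hasFDerivAt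
  have hsym : ∀ a b : ℂ, fderiv ℝ (fderiv ℝ η) z a b = fderiv ℝ (fderiv ℝ η) z b a := fun a b =>
    ((hη.contDiffAt.of_le (m := ((2:ℕ∞) : WithTop ℕ∞)) (by exact_mod_cast le_top)).isSymmSndFDerivAt
      (by simp)).eq a b
  have h4 : HasFDerivAt (dbar η) ((1/2 : ℂ) • (((ContinuousLinearMap.apply ℝ ℂ (1:ℂ)).comp
      (fderiv ℝ (fderiv ℝ η) z)) + Complex.I • ((ContinuousLinearMap.apply ℝ ℂ Complex.I).comp
      (fderiv ℝ (fderiv ℝ η) z)))) z := by
    unfold dbar
    exact ((h3 1).add ((h3 Complex.I).const_mul Complex.I)).const_mul (1/2 : ℂ)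
  rw [h4.fderiv]
  unfold dbar
  rw [(h3 v).fderiv]
  simp only [add_apply, smul_apply, ContinuousLinearMap.comp_apply, ContinuousLinearMap.apply_apply,
    smul_eq_mul, hsym 1 v, hsym Complex.I v]

/-- differentiation of the weak equation -/
theorem wdb_fderiv {V F : ℂ → ℂ} {Ω : Set ℂ} (hΩ : IsOpen Ω) (hV : ContDiffOn ℝ 1 V Ω)
    (hF : ContDiffOn ℝ 1 F Ω) (h : WDb Ω V F) (v : ℂ) :
    WDb Ω (fun z => fderiv ℝ V z v) fun z => fderiv ℝ F z v := by
  intro η hη hc hs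
  have hd : ContDiff ℝ ∞ (dbar η) := contDiff_dbar hη
  have e1 := ibp_loc hΩ hV (hd.of_le (by exact_mod_cast le_top)) (hasCompactSupport_dbar hc)
    ((tsupport_dbar η).trans hs) v
  have e2 := ibp_loc hΩ hF (hη.of_le (by exact_mod_cast le_top)) hc hs v
  have h1 : ContDiff ℝ ∞ (fderiv ℝ η) := hη.fderiv_right (by simp)
  have hv : ContDiff ℝ ∞ fun z => fderiv ℝ η z v := h1.clm_apply contDiff_const
  have hts : tsupport (fun z => fderiv ℝ η z v) ⊆ tsupport η := by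
    refine closure_minimal ?_ (isClosed_tsupport η)
    intro z hz
    by_contra hcon
    refine hz ?_
    have h1 : fderiv ℝ η z = 0 := by
      by_contra h2
      exact hcon (support_fderiv_subset ℝ h2)
    simp only [h1]
    rfl
  have e3 := h _ hv (hc.of_isClosed_subset (isClosed_tsupport _) hts) (hts.trans hs)
  rw [e1, e2, neg_neg]
  simp_rw [← dbar_fderiv hη]
  rw [e3, neg_neg]

/-- **regularity for `∂̄`** -/
theorem hc_of_wdb {Ω : Set ℂ} (hΩ : IsOpen Ω) {a : ℝ} (ha0 : 0 < a) (ha1 : a < 1) (k : ℕ) :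
    ∀ {V F : ℂ → ℂ}, ContinuousOn V Ω → HC a Ω k F → WDb Ω V F → HC a Ω (k + 1) V := by
  induction k with
  | zero => intro V F hV hF h; exact hc1_of_wdb hΩ hV ha0 ha1 hF h
  | succ k ih =>
    intro V F hV hF h
    have hV1 : HC a Ω (k + 1) V := ih hV (hF.of_succ ha0 ha1.le hΩ) h
    have cV : ContDiffOn ℝ 1 V Ω := (hV1.contDiffOn ha0 hΩ).of_le (by norm_cast; omega)
    have cF : ContDiffOn ℝ 1 F Ω := (hF.contDiffOn ha0 hΩ).of_le (by norm_cast; omega)
    refine ⟨hV1.1, ?_⟩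
    have h1 : ∀ v : ℂ, HC a Ω (k + 1) fun z => fderiv ℝ V z v := by
      intro v
      refine ih ?_ ?_ (wdb_fderiv hΩ cV cF h v)
      · exact (cV.continuousOn_fderiv_of_isOpen hΩ le_rfl).clm_apply continuousOn_const
      · exact hF.2.clm ha0 ha1.le hΩ (ContinuousLinearMap.apply ℝ ℂ v)
    exact HC.of_apply ha0 ha1.le hΩ Complex.basisOneI fun i => h1 _

end

end Vale.Agent.P247.H734
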