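import Vale.Agent.P247.H734.JReg
import Vale.Agent.P247.H324.MG.Belt2

/-! P247, REG1 (helper734): `C¹` solutions of `Y_z̄ = ν(z,Y) Y_z + A(z,Y)` are smooth; the graph is
a `J`-holomorphic curve. Part 1: the almost complex structure. -/

set_option linter.unusedSectionVars false

open MeasureTheory Filter Topology Set Metric
open scoped ContDiff Convolution

namespace Vale.Agent.P247.H734

open Vale.Agent.P247.H74 hiding dbar

noncomputable section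

/-- `ℂ × ℂ` and `ℝ⁴` -/
def e4 : (ℂ × ℂ) ≃L[ℝ] R4 :=
  LinearEquiv.toContinuousLinearEquiv
    { toFun := fun p => ![p.1.re, p.1.im, p.2.re, p.2.im]
      invFun := fun x => (⟨x 0, x 1⟩, ⟨x 2, x 3⟩)
      map_add' := fun p q => by
        funext i; fin_cases i <;> simp
      map_smul' := fun c p => by
        funext i; fin_cases i <;> simp
      left_inv := fun p => by simp
      right_inv := fun x => by
        funext i; fin_cases i <;> simp }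

section Jc

variable (ν A : ℂ × ℂ → ℂ)

/-- `1 - |ν|²` -/
def dn (p : ℂ × ℂ) : ℂ := 1 - ν p * (starRingEnd ℂ) (ν p)

def c11 (p : ℂ × ℂ) : ℂ := Complex.I * (1 + ν p * (starRingEnd ℂ) (ν p)) * (dn ν p)⁻¹
def c12 (p : ℂ × ℂ) : ℂ := 2 * Complex.I * ν p * (dn ν p)⁻¹

abbrev fstL : ℂ × ℂ →L[ℝ] ℂ := ContinuousLinearMap.fst ℝ ℂ ℂ
abbrev cfstL : ℂ × ℂ →L[ℝ] ℂ := (Complex.conjCLE : ℂ →L[ℝ] ℂ).comp (ContinuousLinearMap.fst ℝ ℂ ℂ)
abbrev sndL : ℂ × ℂ →L[ℝ] ℂ := ContinuousLinearMap.snd ℝ ℂ ℂ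

def L1 (p : ℂ × ℂ) : ℂ × ℂ →L[ℝ] ℂ := c11 ν p • fstL + c12 ν p • cfstL

def L2 (p : ℂ × ℂ) : ℂ × ℂ →L[ℝ] ℂ := Complex.I • sndL +
  (A p * (starRingEnd ℂ) (c12 ν p)) • fstL +
  (-Complex.I * A p + A p * (starRingEnd ℂ) (c11 ν p)) • cfstL

/-- the almost complex structure with `(1,0)`-forms `dz + ν dz̄` and `dy - A dz̄` -/
def Jc (p : ℂ × ℂ) : ℂ × ℂ →L[ℝ] ℂ × ℂ :=
  (ContinuousLinearMap.inl ℝ ℂ ℂ).comp (L1 ν p) + (ContinuousLinearMap.inr ℝ ℂ ℂ).comp (L2 ν A p)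

theorem Jc_fst (p u : ℂ × ℂ) : (Jc ν A p u).1 = c11 ν p * u.1 + c12 ν p * (starRingEnd ℂ) u.1 := by
  simp [Jc, L1]

theorem Jc_snd (p u : ℂ × ℂ) : (Jc ν A p u).2 = Complex.I * u.2 +
    A p * (starRingEnd ℂ) (c12 ν p) * u.1 +
    (-Complex.I * A p + A p * (starRingEnd ℂ) (c11 ν p)) * (starRingEnd ℂ) u.1 := by
  simp [Jc, L2]

variable {ν A}

theorem dn_ne {p : ℂ × ℂ} (h : ‖ν p‖ < 1) : dn ν p ≠ 0 := by
  unfold dn
  rw [Complex.mul_conj, Complex.normSq_eq_norm_sq]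
  intro h0
  have h1 : (1 : ℝ) - ‖ν p‖ ^ 2 = 0 := by exact_mod_cast h0
  nlinarith [norm_nonneg (ν p)]

theorem conj_dn (p : ℂ × ℂ) : (starRingEnd ℂ) (dn ν p) = dn ν p := by
  unfold dn
  rw [map_sub, map_mul, Complex.conj_conj, map_one, mul_comm]

theorem conj_c11 (p : ℂ × ℂ) : (starRingEnd ℂ) (c11 ν p) = - c11 ν p := by
  unfold c11
  rw [map_mul, map_mul, map_inv₀, conj_dn, map_add, map_mul, Complex.conj_conj, map_one,
    Complex.conj_I]
  ring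

theorem conj_c12 (p : ℂ × ℂ) : (starRingEnd ℂ) (c12 ν p) =
    - 2 * Complex.I * (starRingEnd ℂ) (ν p) * (dn ν p)⁻¹ := by
  unfold c12
  rw [map_mul, map_mul, map_mul, map_inv₀, conj_dn, Complex.conj_I, map_ofNat]
  ring

theorem c_rel {p : ℂ × ℂ} (h : ‖ν p‖ < 1) :
    c11 ν p * c11 ν p + c12 ν p * (starRingEnd ℂ) (c12 ν p) = -1 := by
  have h0 := dn_ne h
  rw [conj_c12]
  unfold c11 c12
  have h1 : dn ν p * (dn ν p)⁻¹ = 1 := mul_inv_cancel₀ h0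
  have h2 : (1 + ν p * (starRingEnd ℂ) (ν p)) ^ 2 - 4 * (ν p * (starRingEnd ℂ) (ν p)) = dn ν p ^ 2 := by
    unfold dn; ring
  have h3 : Complex.I * Complex.I = -1 := Complex.I_mul_I
  calc _ = (Complex.I * Complex.I) * ((1 + ν p * (starRingEnd ℂ) (ν p)) ^ 2 -
        4 * (ν p * (starRingEnd ℂ) (ν p))) * ((dn ν p)⁻¹) ^ 2 := by ring
    _ = (Complex.I * Complex.I) * (dn ν p * (dn ν p)⁻¹) ^ 2 := by rw [h2]; ring
    _ = -1 := by rw [h1, h3]; ring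

theorem Jc_sq {p : ℂ × ℂ} (h : ‖ν p‖ < 1) (u : ℂ × ℂ) : Jc ν A p (Jc ν A p u) = -u := by
  have hr := c_rel h
  have hr' : (starRingEnd ℂ) (c11 ν p) = - c11 ν p := conj_c11 p
  ext1
  · rw [Jc_fst, Jc_fst, map_add, map_mul, map_mul, Complex.conj_conj, hr', Prod.fst_neg]
    linear_combination u.1 * hr
  · rw [Jc_snd, Jc_snd, Jc_fst, map_add, map_mul, map_mul, Complex.conj_conj, hr', Prod.snd_neg]
    linear_combination (u.2 - A p * (starRingEnd ℂ) u.1) * Complex.I_mul_I +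
      A p * (starRingEnd ℂ) u.1 * hr

/-- characterisation -/
theorem Jc_eq {p : ℂ × ℂ} (h : ‖ν p‖ < 1) {a b a' b' : ℂ}
    (h1 : a' + ν p * (starRingEnd ℂ) a' = Complex.I * (a + ν p * (starRingEnd ℂ) a))
    (h2 : b' - A p * (starRingEnd ℂ) a' = Complex.I * (b - A p * (starRingEnd ℂ) a)) :
    (a', b') = Jc ν A p (a, b) := by
  have h0 := dn_ne h
  have h1c := congrArg (starRingEnd ℂ) h1
  simp only [map_add, map_mul, Complex.conj_conj, Complex.conj_I] at h1c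
  have e1 : a' = c11 ν p * a + c12 ν p * (starRingEnd ℂ) a := by
    have : dn ν p * a' = Complex.I * (1 + ν p * (starRingEnd ℂ) (ν p)) * a +
        2 * Complex.I * ν p * (starRingEnd ℂ) a := by
      unfold dn
      linear_combination h1 - ν p * h1c
    unfold c11 c12
    rw [eq_comm, ← sub_eq_zero]
    have h3 : dn ν p * (dn ν p)⁻¹ = 1 := mul_inv_cancel₀ h0
    linear_combination (-(dn ν p)⁻¹) * this + a' * h3
  ext1
  · rw [Jc_fst]; exact e1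
  · rw [Jc_snd]
    simp only
    have e1c := congrArg (starRingEnd ℂ) e1
    rw [map_add, map_mul, map_mul, Complex.conj_conj] at e1c
    linear_combination h2 + A p * e1c

theorem contDiff_Jc (hν : ContDiff ℝ ∞ ν) (hA : ContDiff ℝ ∞ A) (h : ∀ p, ‖ν p‖ < 1) :
    ContDiff ℝ ∞ (Jc ν A) := by
  have hc : ∀ {f : ℂ × ℂ → ℂ}, ContDiff ℝ ∞ f → ContDiff ℝ ∞ fun p => (starRingEnd ℂ) (f p) :=
    fun {f} hf => (Complex.conjCLE : ℂ →L[ℝ] ℂ).contDiff.comp hf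
  have hdn : ContDiff ℝ ∞ (dn ν) := contDiff_const.sub (hν.mul (hc hν))
  have hdi : ContDiff ℝ ∞ fun p => (dn ν p)⁻¹ := hdn.inv fun p => dn_ne (h p)
  have h11 : ContDiff ℝ ∞ (c11 ν) :=
    (contDiff_const.mul (contDiff_const.add (hν.mul (hc hν)))).mul hdi
  have h12 : ContDiff ℝ ∞ (c12 ν) := (contDiff_const.mul hν).mul hdi
  have hL1 : ContDiff ℝ ∞ (L1 ν) := by
    unfold L1
    exact (h11.smul contDiff_const).add (h12.smul contDiff_const)
  have hL2 : ContDiff ℝ ∞ (L2 ν A) := by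
    unfold L2
    exact (contDiff_const.add ((hA.mul (hc h12)).smul contDiff_const)).add
      (((contDiff_const.mul hA).add (hA.mul (hc h11))).smul contDiff_const)
  unfold Jc
  exact (contDiff_const.clm_comp hL1).add (contDiff_const.clm_comp hL2)

/-- the structure on `ℝ⁴` -/
def J4 (ν A : ℂ × ℂ → ℂ) (x : R4) : R4 →L[ℝ] R4 :=
  (e4 : ℂ × ℂ →L[ℝ] R4).comp ((Jc ν A (e4.symm x)).comp (e4.symm : R4 →L[ℝ] ℂ × ℂ))

theorem J4_sq (h : ∀ p, ‖ν p‖ < 1) (x u : R4) : J4 ν A x (J4 ν A x u) = -u := by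
  simp only [J4, ContinuousLinearMap.comp_apply, ContinuousLinearEquiv.coe_coe,
    ContinuousLinearEquiv.symm_apply_apply, Jc_sq (h _), map_neg,
    ContinuousLinearEquiv.apply_symm_apply]

theorem contDiff_J4 (hν : ContDiff ℝ ∞ ν) (hA : ContDiff ℝ ∞ A) (h : ∀ p, ‖ν p‖ < 1) :
    ContDiff ℝ ∞ (J4 ν A) := by
  unfold J4
  exact contDiff_const.clm_comp (((contDiff_Jc hν hA h).comp e4.symm.contDiff).clm_comp contDiff_const)

end Jc

end

end Vale.Agent.P247.H734
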