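import Vale.Agent.P247.H734.Sheet1

/-! P247, REG1 (helper734): `C¹` solutions of `Y_z̄ = ν(z,Y) Y_z + A(z,Y)` are smooth.
Part 2: the normalized case. -/

set_option linter.unusedSectionVars false

open MeasureTheory Filter Topology Set Metric
open scoped ContDiff Convolution

namespace Vale.Agent.P247.H734

open Vale.Agent.P247.H74 hiding dbar
open Vale.Agent.P247.H324 (pz pzb pz_pzb belt exists_NId NId near_id pz_comp pz_id pzb_id)
open Vale.Agent.P272.K.R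

noncomputable section

/-- `C¹` functions are Hölder near a point -/
theorem holder_near {μ : ℂ → ℂ} {Ω : Set ℂ} (hΩ : IsOpen Ω) (hμ : ContDiffOn ℝ 1 μ Ω) {z₀ : ℂ}
    (hz : z₀ ∈ Ω) : ∃ r > 0, ball z₀ r ⊆ Ω ∧ ∃ H : ℝ, ∀ x ∈ ball z₀ r, ∀ y ∈ ball z₀ r,
      ‖μ x - μ y‖ ≤ H * ‖x - y‖ ^ (1 / 2 : ℝ) := by
  have h1 : LHol (1/2) μ Ω := lHol_of_fderiv (by norm_num) hΩ
    (fun x hx => (hμ.differentiableOn (by simp)).differentiableAt (hΩ.mem_nhds hx))
    (hμ.continuousOn_fderiv_of_isOpen hΩ le_rfl)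
  obtain ⟨r, hr, hb, C, hC, h⟩ := h1 z₀ hz
  exact ⟨r, hr, hb, C, fun x hx y hy => h x hx y hy⟩

/-- inverse of a smooth map -/
theorem contDiffAt_inv {w G : ℂ → ℂ} (hN : NId w G) {t : ℂ} (hG : ContDiffAt ℝ ∞ G t) :
    ContDiffAt ℝ ∞ w (G t) := by
  set e : ℂ ≃ₜ ℂ := { toFun := G, invFun := w, left_inv := hN.wg, right_inv := hN.gw,
                      continuous_toFun := hN.gc.continuous, continuous_invFun := hN.wc.continuous } with he
  set f₀' : ℂ ≃L[ℝ] ℂ := ContinuousLinearEquiv.equivOfInverse (fderiv ℝ G t) (fderiv ℝ w (G t))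
    (fun x => by
      have h1 := DFunLike.congr_fun (hN.comp2 t) x
      simpa using h1)
    (fun x => by
      have h1 := DFunLike.congr_fun (hN.comp3 t) x
      simpa using h1) with hf
  have h2 : HasFDerivAt G (f₀' : ℂ →L[ℝ] ℂ) t := hN.hasg t
  have h3 := e.toOpenPartialHomeomorph.contDiffAt_symm (n := ∞) (a := G t) (f₀' := f₀') trivial
    (by
      have : e.toOpenPartialHomeomorph.symm (G t) = t := hN.wg t
      rw [this]; exact h2)
    (by
      have : e.toOpenPartialHomeomorph.symm (G t) = t := hN.wg t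
      rw [this]; exact hG)
  exact h3

/-- normalized case -/
theorem sheet_norm {ν A : ℂ × ℂ → ℂ} (hν : ContDiff ℝ ∞ ν) (hA : ContDiff ℝ ∞ A)
    (hν1 : ∀ p, ‖ν p‖ < 1) {Y : ℂ → ℂ} {Ω : Set ℂ} (hΩ : IsOpen Ω) (h0 : (0:ℂ) ∈ Ω)
    (hY : ContDiffOn ℝ 1 Y Ω) (hn : ν (0, Y 0) = 0)
    (heq : ∀ z ∈ Ω, pzb (fderiv ℝ Y z) = ν (z, Y z) * pz (fderiv ℝ Y z) + A (z, Y z)) :
    ContDiffAt ℝ ∞ Y 0 := by
  have hgr : ContDiffOn ℝ 1 (fun z => (z, Y z)) Ω := contDiffOn_id.prodMk hY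
  have hμ : ContDiffOn ℝ 1 (fun z => ν (z, Y z)) Ω :=
    (hν.of_le (by exact_mod_cast le_top)).comp_contDiffOn hgr
  obtain ⟨r0, hr0, hr0Ω, H, hH⟩ := holder_near hΩ hμ h0
  obtain ⟨r1, hr1, hr10, w, hwc, hw0, hwn, -, hwe⟩ :=
    belt (α := 1/2) (by norm_num) (by norm_num) hr0 hH hn (show (0 : ℝ) < 1 / 4 by norm_num)
  obtain ⟨G, hN⟩ := exists_NId hwc hwn
  have hG0 : G 0 = 0 := by
    have := hN.gw 0
    rwa [hw0] at this
  have hup : ∀ t, ‖G t‖ ≤ 4 / 3 * ‖t‖ := by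
    intro t
    have := hN.low t 0
    rwa [hG0, sub_zero, sub_zero] at this
  have hmem : ∀ t ∈ ball (0 : ℂ) (r1 / 2), G t ∈ ball (0 : ℂ) r1 := by
    intro t ht
    rw [mem_ball_zero_iff] at ht ⊢
    have := hup t
    linarith
  have hΩ1 : ∀ t ∈ ball (0 : ℂ) (r1 / 2), G t ∈ Ω := fun t ht =>
    hr0Ω (ball_subset_ball hr10 (hmem t ht))
  -- the holomorphic map
  set U : ℂ → R4 := fun t => e4 (G t, Y (G t)) with hU
  have hYG : ∀ t ∈ ball (0:ℂ) (r1/2), HasFDerivAt (fun t => Y (G t))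
      ((fderiv ℝ Y (G t)).comp (fderiv ℝ G t)) t := fun t ht =>
    ((hY.differentiableOn (by simp)).differentiableAt (hΩ.mem_nhds (hΩ1 t ht))).hasFDerivAt.comp t
      (hN.hasg t)
  have hUd : ∀ t ∈ ball (0:ℂ) (r1/2), HasFDerivAt U
      ((e4 : ℂ × ℂ →L[ℝ] R4).comp ((fderiv ℝ G t).prod ((fderiv ℝ Y (G t)).comp (fderiv ℝ G t)))) t :=
    fun t ht => (e4 : ℂ × ℂ →L[ℝ] R4).hasFDerivAt.comp t ((hN.hasg t).prodMk (hYG t ht))
  have hUc : ContDiffOn ℝ 1 U (ball 0 (r1/2)) :=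
    (e4 : ℂ × ℂ →L[ℝ] R4).contDiff.comp_contDiffOn
      (hN.gc.contDiffOn.prodMk (hY.comp hN.gc.contDiffOn fun t ht => hΩ1 t ht))
  have hJ : ∀ t ∈ ball (0:ℂ) (r1/2), fderiv ℝ U t Complex.I = J4 ν A (U t) (fderiv ℝ U t 1) := by
    intro t ht
    rw [(hUd t ht).fderiv]
    simp only [ContinuousLinearMap.comp_apply, ContinuousLinearMap.prod_apply, J4, hU,
      ContinuousLinearEquiv.coe_coe, ContinuousLinearEquiv.symm_apply_apply]
    congr 1
    set W := fderiv ℝ w (G t) with hW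
    set L := fderiv ℝ G t with hL
    set D := fderiv ℝ Y (G t) with hD
    obtain ⟨n1, n2, n3, -⟩ := near_id (hN.near (G t))
    have hc := hN.comp2 t
    have hc2 := (pz_comp W L).2
    rw [hc, pzb_id] at hc2
    have hwe' := hwe (G t) (hmem t ht)
    have hp0 : pz W ≠ 0 := by
      intro h
      rw [← hW, h, norm_zero] at n1
      linarith
    have hkey : pzb L = - ν (G t, Y (G t)) * (starRingEnd ℂ) (pz L) := by
      apply mul_right_cancel₀ hp0
      simp only [smul_eq_mul] at hc2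
      rw [hwe'] at hc2
      linear_combination (-1 : ℂ) * hc2
    have hE := heq (G t) (hΩ1 t ht)
    rw [← hD] at hE
    have e1 := pz_pzb L 1
    have eI := pz_pzb L Complex.I
    simp only [smul_eq_mul, map_one, one_mul, Complex.conj_I] at e1 eI
    have f1 := pz_pzb D (L 1)
    have fI := pz_pzb D (L Complex.I)
    simp only [smul_eq_mul] at f1 fI
    refine Jc_eq (hν1 _) ?_ ?_
    · rw [e1, eI, hkey]
      simp only [map_add, map_mul, map_neg, Complex.conj_conj, Complex.conj_I]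
      ring
    · rw [f1, fI, hE, e1, eI, hkey]
      simp only [map_add, map_mul, map_neg, Complex.conj_conj, Complex.conj_I]
      ring
  have hUs : ContDiffOn ℝ ∞ U (ball 0 (r1/2)) :=
    smooth_of_jhol (contDiff_J4 hν hA hν1) (J4_sq hν1) isOpen_ball hUc hJ
  have hU0 : ContDiffAt ℝ ∞ U 0 := hUs.contDiffAt (ball_mem_nhds _ (by positivity))
  have hpair : ContDiffAt ℝ ∞ (fun t => (G t, Y (G t))) 0 := by
    have h1 := (e4.symm : R4 →L[ℝ] ℂ × ℂ).contDiff.contDiffAt.comp (0:ℂ) hU0 (n := ∞)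
    refine h1.congr_of_eventuallyEq (Eventually.of_forall fun t => ?_)
    simp [hU]
  have hGs : ContDiffAt ℝ ∞ G 0 := hpair.fst
  have hYs : ContDiffAt ℝ ∞ (fun t => Y (G t)) 0 := hpair.snd
  have hws : ContDiffAt ℝ ∞ w 0 := by
    have := contDiffAt_inv hN hGs
    rwa [hG0] at this
  have h2 : ContDiffAt ℝ ∞ (fun z => Y (G (w z))) 0 :=
    ContDiffAt.comp (g := fun t => Y (G t)) 0 (by rw [hw0]; exact hYs) hws
  refine h2.congr_of_eventuallyEq (Eventually.of_forall fun z => ?_)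
  simp only [hN.gw]

end

end Vale.Agent.P247.H734
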