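import Vale.Agent.P247.H734.Sheet2

/-! P247, REG1 (helper734): **`C¹` solutions of `Y_z̄ = ν(z,Y) Y_z + A(z,Y)`, `|ν| < 1`, are smooth**. -/

set_option linter.unusedSectionVars false

open MeasureTheory Filter Topology Set Metric
open scoped ContDiff Convolution

namespace Vale.Agent.P247.H734

open Vale.Agent.P247.H74 hiding dbar
open Vale.Agent.P247.H324 (pz pzb pz_pzb pz_comp pz_eq_of)
open Vale.Agent.P272.K.R

noncomputable section

theorem contDiff_cut {E F : Type*} [NormedAddCommGroup E] [NormedSpace ℝ E] [NormedAddCommGroup F]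
    [NormedSpace ℝ F] {χ : E → ℝ} {u : E → F} {O : Set E} (hO : IsOpen O) (hχ : ContDiff ℝ ∞ χ)
    (hs : tsupport χ ⊆ O) (hu : ContDiffOn ℝ ∞ u O) : ContDiff ℝ ∞ fun z => χ z • u z := by
  rw [contDiff_iff_contDiffAt]
  intro z
  by_cases hz : z ∈ tsupport χ
  · exact hχ.contDiffAt.smul (hu.contDiffAt (hO.mem_nhds (hs hz)))
  · have h4 : (fun z => χ z • u z) =ᶠ[𝓝 z] fun _ => 0 := by
      filter_upwards [(isClosed_tsupport χ).isOpen_compl.mem_nhds hz] with y hy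
      rw [image_eq_zero_of_notMem_tsupport hy, zero_smul]
    exact contDiffAt_const.congr_of_eventuallyEq h4

/-- local coefficients, normalized at the point -/
theorem sheet_loc {ν A : ℂ × ℂ → ℂ} {O : Set (ℂ × ℂ)} (hO : IsOpen O) (hν : ContDiffOn ℝ ∞ ν O)
    (hA : ContDiffOn ℝ ∞ A O) {Y : ℂ → ℂ} {Ω : Set ℂ} (hΩ : IsOpen Ω) (h0 : (0:ℂ) ∈ Ω)
    (hY : ContDiffOn ℝ 1 Y Ω) (hp : (0, Y 0) ∈ O) (hn : ν (0, Y 0) = 0)
    (heq : ∀ z ∈ Ω, (z, Y z) ∈ O →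
      pzb (fderiv ℝ Y z) = ν (z, Y z) * pz (fderiv ℝ Y z) + A (z, Y z)) :
    ContDiffAt ℝ ∞ Y 0 := by
  have hO1 : IsOpen (O ∩ ν ⁻¹' ball 0 1) := hν.continuousOn.isOpen_inter_preimage hO isOpen_ball
  set O1 := O ∩ ν ⁻¹' ball 0 1 with hO1d
  have hp1 : (0, Y 0) ∈ O1 := ⟨hp, by rw [mem_preimage, hn]; exact mem_ball_self one_pos⟩
  obtain ⟨ρ, hρ, hρO⟩ := Metric.isOpen_iff.1 hO1 _ hp1
  set χ : ContDiffBump ((0, Y 0) : ℂ × ℂ) :=
    { rIn := ρ / 4, rOut := ρ / 2, rIn_pos := by positivity, rIn_lt_rOut := by linarith } with hχ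
  have hsup : tsupport χ ⊆ O1 := by
    rw [χ.tsupport_eq]
    exact (closedBall_subset_ball (by simp only [hχ]; linarith)).trans hρO
  set ν2 : ℂ × ℂ → ℂ := fun p => χ p • ν p with hν2
  set A2 : ℂ × ℂ → ℂ := fun p => χ p • A p with hA2
  have hν2s : ContDiff ℝ ∞ ν2 := contDiff_cut hO1 χ.contDiff hsup (hν.mono inter_subset_left)
  have hA2s : ContDiff ℝ ∞ A2 := contDiff_cut hO1 χ.contDiff hsup (hA.mono inter_subset_left)
  have hb : ∀ p, ‖ν2 p‖ < 1 := by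
    intro p
    simp only [hν2, norm_smul]
    by_cases h : p ∈ tsupport χ
    · have h1 : ‖ν p‖ < 1 := by
        have := (hsup h).2
        rwa [mem_preimage, mem_ball_zero_iff] at this
      have h2 : ‖χ p‖ ≤ 1 := by
        rw [Real.norm_of_nonneg χ.nonneg]; exact χ.le_one
      nlinarith [norm_nonneg (χ p), norm_nonneg (ν p)]
    · rw [image_eq_zero_of_notMem_tsupport h]; simp
  have hone : χ ((0, Y 0) : ℂ × ℂ) = 1 := χ.one_of_mem_closedBall (mem_closedBall_self (by positivity))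
  have hgr : ContinuousOn (fun z => (z, Y z)) Ω := continuousOn_id.prodMk hY.continuousOn
  have hΩ2 : IsOpen (Ω ∩ (fun z => (z, Y z)) ⁻¹' ball (0, Y 0) (ρ/4)) :=
    hgr.isOpen_inter_preimage hΩ isOpen_ball
  refine sheet_norm hν2s hA2s hb hΩ2 ⟨h0, mem_ball_self (by positivity)⟩ (hY.mono inter_subset_left)
    (by simp only [hν2, hone, hn, smul_zero]) fun z hz => ?_
  have h1 : χ (z, Y z) = 1 := χ.one_of_mem_closedBall (ball_subset_closedBall hz.2)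
  simp only [hν2, hA2, h1, one_smul]
  exact heq z hz.1 (hρO (ball_subset_ball (by linarith) hz.2)).1

/-- **`C¹` sheets are smooth** -/
theorem smooth_sheet {Ω : Set ℂ} {O : Set (ℂ × ℂ)} {ν A : ℂ × ℂ → ℂ} {Y : ℂ → ℂ} (hΩ : IsOpen Ω)
    (hO : IsOpen O) (hν : ContDiffOn ℝ ∞ ν O) (hA : ContDiffOn ℝ ∞ A O) (hY : ContDiffOn ℝ 1 Y Ω)
    (hgr : ∀ z ∈ Ω, (z, Y z) ∈ O ∧ ‖ν (z, Y z)‖ < 1)
    (heq : ∀ z ∈ Ω, pzb (fderiv ℝ Y z) = ν (z, Y z) * pz (fderiv ℝ Y z) + A (z, Y z)) :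
    ContDiffOn ℝ ∞ Y Ω := by
  intro z₀ hz₀
  refine ContDiffAt.contDiffWithinAt ?_
  obtain ⟨hp, hμ⟩ := hgr z₀ hz₀
  set μ : ℂ := ν (z₀, Y z₀) with hμd
  set d : ℂ := 1 - μ * (starRingEnd ℂ) μ with hd
  have hd0 : d ≠ 0 := by
    rw [hd, Complex.mul_conj, Complex.normSq_eq_norm_sq]
    intro h0
    have h1 : (1 : ℝ) - ‖μ‖ ^ 2 = 0 := by exact_mod_cast h0
    nlinarith [norm_nonneg μ]
  have hdc : (starRingEnd ℂ) d = d := by
    rw [hd, map_sub, map_mul, Complex.conj_conj, map_one, mul_comm]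
  set W : ℂ →L[ℝ] ℂ := d⁻¹ • (ContinuousLinearMap.id ℝ ℂ) + (-(d⁻¹ * μ)) • (Complex.conjCLE : ℂ →L[ℝ] ℂ)
    with hW
  have hWv : ∀ v, W v = v • d⁻¹ + ((starRingEnd ℂ) v) • (-(d⁻¹ * μ)) := by
    intro v; simp [hW, mul_comm]
  obtain ⟨hW1, hW2⟩ := pz_eq_of hWv
  set T : ℂ → ℂ := fun z => (z - z₀) + μ * (starRingEnd ℂ) (z - z₀) with hT
  have hTs : ContDiff ℝ ∞ T := by
    have h1 : ContDiff ℝ ∞ fun z : ℂ => z - z₀ := contDiff_id.sub contDiff_const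
    exact h1.add (contDiff_const.mul ((Complex.conjCLE : ℂ →L[ℝ] ℂ).contDiff.comp h1))
  have hST : ∀ z, z₀ + W (T z) = z := by
    intro z
    rw [hWv]
    simp only [hT, smul_eq_mul, map_add, map_mul, Complex.conj_conj]
    have h1 : d * d⁻¹ = 1 := mul_inv_cancel₀ hd0
    have : d⁻¹ * (1 - μ * (starRingEnd ℂ) μ) = 1 := by rw [← hd, mul_comm]; exact h1
    linear_combination (z - z₀) * this
  set S : ℂ → ℂ := fun ζ => z₀ + W ζ with hS
  have hSs : ContDiff ℝ ∞ S := contDiff_const.add W.contDiff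
  have hS0 : S 0 = z₀ := by simp [hS]
  set Y1 : ℂ → ℂ := fun ζ => Y (S ζ) with hY1
  have hΩ1 : IsOpen (S ⁻¹' Ω) := hΩ.preimage hSs.continuous
  have h01 : (0:ℂ) ∈ S ⁻¹' Ω := by rw [mem_preimage, hS0]; exact hz₀
  have hY1c : ContDiffOn ℝ 1 Y1 (S ⁻¹' Ω) :=
    hY.comp ((hSs.of_le (by exact_mod_cast le_top)).contDiffOn) fun x hx => hx
  set Q : ℂ × ℂ → ℂ × ℂ := fun p => (S p.1, p.2) with hQ
  have hQs : ContDiff ℝ ∞ Q := (hSs.comp contDiff_fst).prodMk contDiff_snd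
  -- the new coefficients
  have hOd : IsOpen (O ∩ ν ⁻¹' ball 0 1) := hν.continuousOn.isOpen_inter_preimage hO isOpen_ball
  have hO1 : IsOpen (Q ⁻¹' (O ∩ ν ⁻¹' ball 0 1)) := hOd.preimage hQs.continuous
  set O1 := Q ⁻¹' (O ∩ ν ⁻¹' ball 0 1) with hO1d
  have hne : ∀ p ∈ O1, 1 - ν (Q p) * (starRingEnd ℂ) μ ≠ 0 := by
    intro p hp h0
    have h1 : ‖ν (Q p)‖ < 1 := by
      have := hp.2
      rwa [mem_preimage, mem_ball_zero_iff] at this
    have h2 : (1:ℝ) = ‖ν (Q p)‖ * ‖μ‖ := by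
      have h3 : ν (Q p) * (starRingEnd ℂ) μ = 1 := (sub_eq_zero.1 h0).symm
      rw [← Complex.norm_conj μ, ← norm_mul, h3, norm_one]
    nlinarith [norm_nonneg μ, norm_nonneg (ν (Q p))]
  have hνQ : ContDiffOn ℝ ∞ (fun p => ν (Q p)) O1 :=
    hν.comp hQs.contDiffOn fun p hp => hp.1
  have hAQ : ContDiffOn ℝ ∞ (fun p => A (Q p)) O1 :=
    hA.comp hQs.contDiffOn fun p hp => hp.1
  have hden : ContDiffOn ℝ ∞ (fun p => (1 - ν (Q p) * (starRingEnd ℂ) μ)⁻¹) O1 :=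
    (contDiffOn_const.sub (hνQ.mul contDiffOn_const)).inv hne
  set ν1 : ℂ × ℂ → ℂ := fun p => (ν (Q p) - μ) * (1 - ν (Q p) * (starRingEnd ℂ) μ)⁻¹ with hν1
  set A1 : ℂ × ℂ → ℂ := fun p => A (Q p) * (1 - ν (Q p) * (starRingEnd ℂ) μ)⁻¹ with hA1
  have hν1s : ContDiffOn ℝ ∞ ν1 O1 := (hνQ.sub contDiffOn_const).mul hden
  have hA1s : ContDiffOn ℝ ∞ A1 O1 := hAQ.mul hden
  have hQ0 : Q (0, Y1 0) = (z₀, Y z₀) := by simp only [hQ, hY1, hS0]
  have hp1 : (0, Y1 0) ∈ O1 := by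
    rw [hO1d, mem_preimage, hQ0]
    exact ⟨hp, by rw [mem_preimage, mem_ball_zero_iff]; exact hμ⟩
  have hn1 : ν1 (0, Y1 0) = 0 := by
    simp only [hν1, hQ0, ← hμd, sub_self, zero_mul]
  have key : ContDiffAt ℝ ∞ Y1 0 := by
    refine sheet_loc hO1 hν1s hA1s hΩ1 h01 hY1c hp1 hn1 fun ζ hζ hζO => ?_
    have hSd : HasFDerivAt S W ζ := by
      have := W.hasFDerivAt (x := ζ)
      exact this.const_add z₀
    have hYd : HasFDerivAt Y (fderiv ℝ Y (S ζ)) (S ζ) :=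
      ((hY.differentiableOn (by simp)).differentiableAt (hΩ.mem_nhds hζ)).hasFDerivAt
    have hc : fderiv ℝ Y1 ζ = (fderiv ℝ Y (S ζ)).comp W := (hYd.comp ζ hSd).fderiv
    rw [hc, (pz_comp _ _).1, (pz_comp _ _).2, hW1, hW2, heq (S ζ) hζ]
    have hQζ : Q (ζ, Y1 ζ) = (S ζ, Y (S ζ)) := rfl
    have hn := hne _ hζO
    simp only [hν1, hA1, hQζ] at hn ⊢
    set n := ν (S ζ, Y (S ζ)) with hnd
    set P := pz (fderiv ℝ Y (S ζ)) with hP
    set a := A (S ζ, Y (S ζ)) with ha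
    have h1 : (1 - n * (starRingEnd ℂ) μ) * (1 - n * (starRingEnd ℂ) μ)⁻¹ = 1 := mul_inv_cancel₀ hn
    have h2 : d * d⁻¹ = 1 := mul_inv_cancel₀ hd0
    simp only [smul_eq_mul, map_neg, map_mul, map_inv₀, hdc]
    set i := (1 - n * (starRingEnd ℂ) μ)⁻¹ with hi
    have h3 : μ * (starRingEnd ℂ) μ = 1 - d := by rw [hd]; ring
    -- multiply out
    have h4 : d⁻¹ * ((n - μ) * P + a) = (n - μ) * i * (d⁻¹ * (P - (starRingEnd ℂ) μ * (n * P + a)))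
        + a * i := by
      linear_combination (-(d⁻¹ * (n - μ) * P + d⁻¹ * a)) * h1 + a * i * h2 -
        d⁻¹ * a * i * h3
    linear_combination h4
  have h2 : ContDiffAt ℝ ∞ (fun z => Y1 (T z)) z₀ := by
    have hT0 : T z₀ = 0 := by simp [hT]
    exact ContDiffAt.comp (g := Y1) z₀ (by rw [hT0]; exact key) hTs.contDiffAt
  refine h2.congr_of_eventuallyEq (Eventually.of_forall fun z => ?_)
  simp only [hY1, hS, hST]

end

end Vale.Agent.P247.H734
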