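import Vale.Agent.P272.CT.Calc

/-! P247, LSX (helper734): symmetry of weak second derivatives of `C¹` functions. -/

set_option linter.unusedSectionVars false

open MeasureTheory Filter Topology Set Metric
open scoped ContDiff Manifold

namespace Vale.Agent.P247.H734

noncomputable section

variable {G : Type*} [NormedAddCommGroup G] [NormedSpace ℝ G]

/-- difference quotients of a `C¹` function with compact support: pointwise limit and bound -/
theorem dq_tendsto {ψ : ℂ → G} (h : ContDiff ℝ 1 ψ) (v z : ℂ) :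
    Tendsto (fun t : ℝ => t⁻¹ • (ψ (z + t • v) - ψ z)) (𝓝[≠] 0) (𝓝 (fderiv ℝ ψ z v)) := by
  have h1 : HasFDerivAt ψ (fderiv ℝ ψ z) z := (h.differentiable (by simp)).differentiableAt.hasFDerivAt
  have h2 := h1.hasLineDerivAt v
  exact h2.tendsto_slope_zero

theorem dq_bound {ψ : ℂ → G} (h : ContDiff ℝ 1 ψ) (hc : HasCompactSupport ψ) (v : ℂ) :
    ∃ L : ℝ, 0 ≤ L ∧ ∀ t : ℝ, ∀ z, ‖t⁻¹ • (ψ (z + t • v) - ψ z)‖ ≤ L := by
  obtain ⟨C, hC⟩ := h.lipschitzWith_of_hasCompactSupport hc (by norm_num)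
  refine ⟨C * ‖v‖, by positivity, fun t z => ?_⟩
  rcases eq_or_ne t 0 with rfl | ht
  · simp only [inv_zero, zero_smul, norm_zero]; positivity
  rw [norm_smul, norm_inv]
  have h1 := hC.dist_le_mul (z + t • v) z
  rw [dist_eq_norm, dist_eq_norm, add_sub_cancel_left, norm_smul] at h1
  have ht' : 0 < ‖t‖ := norm_pos_iff.2 ht
  calc ‖t‖⁻¹ * ‖ψ (z + t • v) - ψ z‖ ≤ ‖t‖⁻¹ * (C * (‖t‖ * ‖v‖)) := by gcongr
    _ = C * ‖v‖ := by field_simp

theorem cont_dir {ψ : ℂ → G} (h : ContDiff ℝ 1 ψ) (v : ℂ) : Continuous fun z => fderiv ℝ ψ z v :=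
  (h.continuous_fderiv (by simp)).clm_apply continuous_const

theorem ibp {u : ℂ → ℝ} {ψ : ℂ → G} (hu : ContDiff ℝ 1 u) (huc : HasCompactSupport u)
    (hψ : ContDiff ℝ 1 ψ) (v : ℂ) :
    ∫ z, fderiv ℝ u z v • ψ z = - ∫ z, u z • fderiv ℝ ψ z v := by
  have h3 := integral_smul_fderiv_eq_neg_fderiv_smul_of_integrable
    (μ := (volume : Measure ℂ)) (𝕜 := ℝ) (f := u) (g := ψ) (v := v) ?_ ?_ ?_ ?_ ?_
  · rw [h3, neg_neg]
  · exact ((cont_dir hu v).smul hψ.continuous).integrable_of_hasCompactSupport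
      (huc.fderiv_apply ℝ v).smul_right
  · exact (hu.continuous.smul (cont_dir hψ v)).integrable_of_hasCompactSupport huc.smul_right
  · exact (hu.continuous.smul hψ.continuous).integrable_of_hasCompactSupport huc.smul_right
  · intro z _
    exact (hu.differentiable (by simp)).differentiableAt
  · intro z _
    exact (hψ.differentiable (by simp)).differentiableAt

/-- the identity for difference quotients -/
theorem sym_dq {u : ℂ → ℝ} {ψ : ℂ → G} (hu : ContDiff ℝ 1 u) (huc : HasCompactSupport u)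
    (hψ : ContDiff ℝ 1 ψ) (a b : ℂ) (t : ℝ) :
    ∫ z, fderiv ℝ u z a • (t⁻¹ • (ψ (z + t • b) - ψ z)) =
      - ∫ z, (t⁻¹ • (u (z + t • (-b)) - u z)) • fderiv ℝ ψ z a := by
  set u' : ℂ → ℝ := fun w => u (w + t • (-b)) with hu'
  have hcd : ContDiff ℝ 1 u' := hu.comp (contDiff_id.add contDiff_const)
  have hcs : HasCompactSupport u' := huc.comp_homeomorph (Homeomorph.addRight (t • (-b)))
  have hψ' : Continuous fun z => ψ (z + t • b) := hψ.continuous.comp (by fun_prop)
  have i1 : Integrable fun z => fderiv ℝ u z a • ψ (z + t • b) :=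
    ((cont_dir hu a).smul hψ').integrable_of_hasCompactSupport (huc.fderiv_apply ℝ a).smul_right
  have i2 : Integrable fun z => fderiv ℝ u z a • ψ z :=
    ((cont_dir hu a).smul hψ.continuous).integrable_of_hasCompactSupport
      (huc.fderiv_apply ℝ a).smul_right
  have i3 : Integrable fun z => u' z • fderiv ℝ ψ z a :=
    (hcd.continuous.smul (cont_dir hψ a)).integrable_of_hasCompactSupport hcs.smul_right
  have i4 : Integrable fun z => u z • fderiv ℝ ψ z a :=
    (hu.continuous.smul (cont_dir hψ a)).integrable_of_hasCompactSupport huc.smul_right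
  have e1 : ∫ z, fderiv ℝ u z a • ψ (z + t • b) = ∫ z, fderiv ℝ u' z a • ψ z := by
    have h1 := integral_add_right_eq_self (μ := (volume : Measure ℂ))
      (fun z => fderiv ℝ u' z a • ψ z) (t • b)
    rw [← h1]
    refine integral_congr_ae (Eventually.of_forall fun z => ?_)
    simp only
    rw [hu', fderiv_comp_add_right, smul_neg, add_neg_cancel_right]
  have l1 : (fun z => fderiv ℝ u z a • (t⁻¹ • (ψ (z + t • b) - ψ z))) =
      fun z => t⁻¹ • (fderiv ℝ u z a • ψ (z + t • b) - fderiv ℝ u z a • ψ z) := by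
    funext z
    rw [smul_comm, smul_sub]
  have l2 : (fun z => (t⁻¹ • (u (z + t • (-b)) - u z)) • fderiv ℝ ψ z a) =
      fun z => t⁻¹ • (u' z • fderiv ℝ ψ z a - u z • fderiv ℝ ψ z a) := by
    funext z
    rw [smul_assoc, sub_smul]
  rw [l1, l2, integral_smul, integral_smul, integral_sub i1 i2, integral_sub i3 i4, e1,
    ibp hcd hcs hψ a, ibp hu huc hψ a, ← smul_neg]
  congr 1
  abel

/-- `∫ ∂_a u ∂_b ψ = ∫ ∂_b u ∂_a ψ` for `C¹` functions with compact support. -/
theorem sym_int {u : ℂ → ℝ} {ψ : ℂ → G} (hu : ContDiff ℝ 1 u) (huc : HasCompactSupport u)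
    (hψ : ContDiff ℝ 1 ψ) (hψc : HasCompactSupport ψ) (a b : ℂ) :
    ∫ z, fderiv ℝ u z a • fderiv ℝ ψ z b = ∫ z, fderiv ℝ u z b • fderiv ℝ ψ z a := by
  obtain ⟨L1, hL1, hb1⟩ := dq_bound hψ hψc b
  obtain ⟨L2, hL2, hb2⟩ := dq_bound hu huc (-b)
  have lim1 : Tendsto (fun t : ℝ => ∫ z, fderiv ℝ u z a • (t⁻¹ • (ψ (z + t • b) - ψ z)))
      (𝓝[≠] 0) (𝓝 (∫ z, fderiv ℝ u z a • fderiv ℝ ψ z b)) := by
    refine tendsto_integral_filter_of_dominated_convergence (fun z => ‖fderiv ℝ u z a‖ * L1)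
      (Eventually.of_forall fun t => ?_) (Eventually.of_forall fun t => Eventually.of_forall
        fun z => ?_) ?_ (Eventually.of_forall fun z => ?_)
    · refine Continuous.aestronglyMeasurable ?_
      have hc : Continuous fun z : ℂ => ψ (z + t • b) :=
        hψ.continuous.comp (continuous_id.add continuous_const)
      exact (cont_dir hu a).smul (continuous_const.smul (hc.sub hψ.continuous))
    · rw [norm_smul]
      exact mul_le_mul_of_nonneg_left (hb1 t z) (norm_nonneg _)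
    · exact (((cont_dir hu a).integrable_of_hasCompactSupport (huc.fderiv_apply ℝ a)).norm).mul_const L1
    · exact (dq_tendsto hψ b z).const_smul _
  have lim2 : Tendsto (fun t : ℝ => ∫ z, (t⁻¹ • (u (z + t • (-b)) - u z)) • fderiv ℝ ψ z a)
      (𝓝[≠] 0) (𝓝 (∫ z, fderiv ℝ u z (-b) • fderiv ℝ ψ z a)) := by
    refine tendsto_integral_filter_of_dominated_convergence (fun z => L2 * ‖fderiv ℝ ψ z a‖)
      (Eventually.of_forall fun t => ?_) (Eventually.of_forall fun t => Eventually.of_forall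
        fun z => ?_) ?_ (Eventually.of_forall fun z => ?_)
    · refine Continuous.aestronglyMeasurable ?_
      have hc : Continuous fun z : ℂ => u (z + t • (-b)) :=
        hu.continuous.comp (continuous_id.add continuous_const)
      have h0 : Continuous u := hu.continuous
      have hc2 : Continuous fun z : ℂ => t⁻¹ • (u (z + t • (-b)) - u z) := by fun_prop
      exact hc2.smul (cont_dir hψ a)
    · rw [norm_smul]
      exact mul_le_mul_of_nonneg_right (hb2 t z) (norm_nonneg _)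
    · exact (((cont_dir hψ a).integrable_of_hasCompactSupport (hψc.fderiv_apply ℝ a)).norm).const_mul L2
    · exact (dq_tendsto hu (-b) z).smul_const _
  have h := tendsto_nhds_unique lim1 ((lim2.neg).congr fun t => (sym_dq hu huc hψ a b t).symm)
  rw [h]
  simp only [map_neg, neg_smul]
  rw [integral_neg, neg_neg]

/-- a smooth cut-off -/
theorem exists_cut {K Ω : Set ℂ} (hK : IsCompact K) (hΩ : IsOpen Ω) (hKΩ : K ⊆ Ω) :
    ∃ χ : ℂ → ℝ, ContDiff ℝ ∞ χ ∧ HasCompactSupport χ ∧ tsupport χ ⊆ Ω ∧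
      (∀ z ∈ K, χ =ᶠ[𝓝 z] fun _ => 1) ∧ ∀ z, χ z ∈ Icc (0:ℝ) 1 := by
  obtain ⟨δ, hδ, hδΩ⟩ := hK.exists_cthickening_subset_open hΩ hKΩ
  have hK1 : IsCompact (cthickening δ K) := hK.cthickening
  obtain ⟨χ, h1, h2, h3⟩ := exists_contMDiffMap_one_nhds_of_subset_interior (n := ⊤) 𝓘(ℝ, ℂ)
    hK.isClosed (t := cthickening δ K) ((self_subset_thickening hδ K).trans
      (interior_maximal (thickening_subset_cthickening δ K) isOpen_thickening))
  have hs : tsupport (χ : ℂ → ℝ) ⊆ cthickening δ K := by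
    refine closure_minimal (fun z hz => ?_) isClosed_cthickening
    by_contra hcon
    exact hz (h2 z hcon)
  refine ⟨χ, χ.contMDiff.contDiff, hK1.of_isClosed_subset (isClosed_tsupport _) hs, hs.trans hδΩ,
    fun z hz => ?_, h3⟩
  exact (eventually_nhdsSet_iff_forall.1 h1) z hz

theorem contDiff_cut_mul {χ : ℂ → ℝ} {u : ℂ → G} {Ω : Set ℂ} (hΩ : IsOpen Ω) (hχ : ContDiff ℝ ∞ χ)
    (hs : tsupport χ ⊆ Ω) {n : ℕ∞} (hu : ContDiffOn ℝ n u Ω) : ContDiff ℝ n fun z => χ z • u z := by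
  rw [contDiff_iff_contDiffAt]
  intro z
  by_cases hz : z ∈ tsupport χ
  · exact (hχ.contDiffAt.of_le (by exact_mod_cast le_top)).smul (hu.contDiffAt (hΩ.mem_nhds (hs hz)))
  · have h4 : (fun z => χ z • u z) =ᶠ[𝓝 z] fun _ => 0 := by
      filter_upwards [(isClosed_tsupport χ).isOpen_compl.mem_nhds hz] with y hy
      rw [image_eq_zero_of_notMem_tsupport hy, zero_smul]
    exact contDiffAt_const.congr_of_eventuallyEq h4

/-- local version -/
theorem sym_loc {u : ℂ → ℝ} {ψ : ℂ → G} {Ω : Set ℂ} (hΩ : IsOpen Ω) (hu : ContDiffOn ℝ 1 u Ω)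
    (hψ : ContDiff ℝ 1 ψ) (hψc : HasCompactSupport ψ) (hs : tsupport ψ ⊆ Ω) (a b : ℂ) :
    ∫ z, fderiv ℝ u z a • fderiv ℝ ψ z b = ∫ z, fderiv ℝ u z b • fderiv ℝ ψ z a := by
  obtain ⟨χ, h1, h2, h3, h4, -⟩ := exists_cut (K := tsupport ψ) hψc hΩ hs
  have key : ∀ v w : ℂ, ∀ z, fderiv ℝ u z v • fderiv ℝ ψ z w =
      fderiv ℝ (fun z => χ z • u z) z v • fderiv ℝ ψ z w := by
    intro v w z
    by_cases hz : z ∈ tsupport ψ
    · have e : (fun z => χ z • u z) =ᶠ[𝓝 z] u := by
        filter_upwards [h4 z hz] with y hy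
        rw [hy, one_smul]
      rw [e.fderiv_eq]
    · have e : ψ =ᶠ[𝓝 z] fun _ => 0 := by
        filter_upwards [(isClosed_tsupport ψ).isOpen_compl.mem_nhds hz] with y hy
        exact image_eq_zero_of_notMem_tsupport hy
      rw [e.fderiv_eq]
      simp
  simp only [key]
  exact sym_int (contDiff_cut_mul hΩ h1 h3 (n := 1) (by exact_mod_cast hu)) h2.smul_right hψ hψc a b

end

end Vale.Agent.P247.H734
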