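import Vale.Agent.P247.H734.Sym
import Vale.Agent.P247.H74.Defs

/-! P247, LSX (helper734): the equation of the gradient of a `C¹` `J`-holomorphic map:
`V = ∂U` satisfies `∂̄V = F` with `F` quadratic in the gradient, weakly. -/

set_option linter.unusedSectionVars false

open MeasureTheory Filter Topology Set Metric
open scoped ContDiff

namespace Vale.Agent.P247.H734

open Vale.Agent.P247.H74 hiding dbar
open Vale.Agent.P272.CT

noncomputable section

section Op

variable {G : Type*} [NormedAddCommGroup G] [NormedSpace ℝ G]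

theorem sum_coord (L : R4 →L[ℝ] G) (v : R4) : L v = ∑ k, v k • L (e k) := by
  conv_lhs => rw [pi_eq_sum_univ' v]
  rw [map_sum]
  refine Finset.sum_congr rfl fun k _ => ?_
  rw [map_smul]
  congr 2

theorem op_sym {L : ℂ → R4 →L[ℝ] G} {U : ℂ → R4} (hL : ContDiff ℝ 1 L) (hLc : HasCompactSupport L)
    (hU : ContDiff ℝ 1 U) (hUc : HasCompactSupport U) (a b : ℂ) :
    ∫ z, fderiv ℝ L z b (fderiv ℝ U z a) = ∫ z, fderiv ℝ L z a (fderiv ℝ U z b) := by
  have hUk : ∀ k, ContDiff ℝ 1 fun z => U z k := fun k => (contDiff_pi.1 hU) k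
  have hUkc : ∀ k, HasCompactSupport fun z => U z k := fun k =>
    hUc.comp_left (g := fun v : R4 => v k) rfl
  have hLk : ∀ k, ContDiff ℝ 1 fun z => L z (e k) := fun k => hL.clm_apply contDiff_const
  have hLkc : ∀ k, HasCompactSupport fun z => L z (e k) := fun k =>
    hLc.comp_left (g := fun L : R4 →L[ℝ] G => L (e k)) rfl
  have e1 : ∀ z v k, fderiv ℝ (fun z => U z k) z v = fderiv ℝ U z v k := by
    intro z v k
    have h1 : HasFDerivAt U (fderiv ℝ U z) z := (hU.differentiable (by simp)).differentiableAt.hasFDerivAt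
    rw [((hasFDerivAt_pi'.1 h1) k).fderiv]
    rfl
  have e2 : ∀ z v k, fderiv ℝ (fun z => L z (e k)) z v = fderiv ℝ L z v (e k) := by
    intro z v k
    have h1 : HasFDerivAt L (fderiv ℝ L z) z := (hL.differentiable (by simp)).differentiableAt.hasFDerivAt
    have h2 := h1.clm_apply (hasFDerivAt_const (e k) z)
    rw [h2.fderiv]
    simp
  have e3 : ∀ v w z, fderiv ℝ L z w (fderiv ℝ U z v) =
      ∑ k, fderiv ℝ (fun z => U z k) z v • fderiv ℝ (fun z => L z (e k)) z w := by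
    intro v w z
    rw [sum_coord]
    exact Finset.sum_congr rfl fun k _ => by rw [e1, e2]
  have hint : ∀ v w k, Integrable fun z =>
      fderiv ℝ (fun z => U z k) z v • fderiv ℝ (fun z => L z (e k)) z w := fun v w k =>
    ((cont_dir (hUk k) v).smul (cont_dir (hLk k) w)).integrable_of_hasCompactSupport
      ((hUkc k).fderiv_apply ℝ v).smul_right
  simp only [e3]
  rw [integral_finsetSum _ fun k _ => hint a b k, integral_finsetSum _ fun k _ => hint b a k]
  exact Finset.sum_congr rfl fun k _ => sym_int (hUk k) (hUkc k) (hLk k) (hLkc k) a b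

theorem op_int {L : ℂ → R4 →L[ℝ] G} {U : ℂ → R4} (hL : ContDiff ℝ 1 L)
    (hU : ContDiff ℝ 1 U) (hUc : HasCompactSupport U) (a b : ℂ) :
    Integrable fun z => fderiv ℝ L z b (fderiv ℝ U z a) := by
  refine Continuous.integrable_of_hasCompactSupport ((cont_dir hL b).clm_apply (cont_dir hU a)) ?_
  refine HasCompactSupport.intro (hUc.fderiv_apply ℝ a) fun z hz => ?_
  rw [image_eq_zero_of_notMem_tsupport hz, map_zero]

end Op

/-- complexified coordinates -/
def cc : R4 →L[ℝ] (Fin 4 → ℂ) :=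
  ContinuousLinearMap.pi fun i => Complex.ofRealCLM.comp (ContinuousLinearMap.proj i)

@[simp] theorem cc_apply (v : R4) (i : Fin 4) : cc v i = (v i : ℂ) := rfl

/-- `∂U` -/
def VV (U : ℂ → R4) (z : ℂ) : Fin 4 → ℂ :=
  (1 / 2 : ℂ) • (cc (fderiv ℝ U z 1) - Complex.I • cc (fderiv ℝ U z Complex.I))

/-- the right hand side -/
def FF (J : R4 → R4 →L[ℝ] R4) (U : ℂ → R4) (z : ℂ) : Fin 4 → ℂ :=
  (1 / 4 : ℂ) • cc (fderiv ℝ J (U z) (fderiv ℝ U z Complex.I) (fderiv ℝ U z 1) -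
    fderiv ℝ J (U z) (fderiv ℝ U z 1) (fderiv ℝ U z Complex.I))

theorem VV_congr {U U' : ℂ → R4} {z : ℂ} (h : U =ᶠ[𝓝 z] U') : VV U z = VV U' z := by
  unfold VV; rw [h.fderiv_eq]

theorem FF_congr {J : R4 → R4 →L[ℝ] R4} {U U' : ℂ → R4} {z : ℂ} (h : U =ᶠ[𝓝 z] U') :
    FF J U z = FF J U' z := by
  unfold FF; rw [h.fderiv_eq, h.self_of_nhds]

theorem fderiv_L1 {η : ℂ → ℂ} (hη1 : ContDiff ℝ 1 η) (z w : ℂ) (v : R4) :
    fderiv ℝ (fun z => η z • cc) z w v = fderiv ℝ η z w • cc v := by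
  have h5 : HasFDerivAt η (fderiv ℝ η z) z :=
    (hη1.differentiable (by simp)).differentiableAt.hasFDerivAt
  have h6 := h5.smul_const cc
  rw [h6.fderiv]
  rfl

theorem fderiv_L2 {η : ℂ → ℂ} (hη1 : ContDiff ℝ 1 η) {J : R4 → R4 →L[ℝ] R4}
    (hJ1 : ContDiff ℝ 1 J) {U : ℂ → R4} (hU : ContDiff ℝ 1 U) (z w : ℂ) (v : R4) :
    fderiv ℝ (fun z => η z • cc.comp (J (U z))) z w v = fderiv ℝ η z w • cc (J (U z) v) +
      η z • cc (fderiv ℝ J (U z) (fderiv ℝ U z w) v) := by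
  have h5 : HasFDerivAt η (fderiv ℝ η z) z :=
    (hη1.differentiable (by simp)).differentiableAt.hasFDerivAt
  have h6 : HasFDerivAt (fun z => J (U z)) ((fderiv ℝ J (U z)).comp (fderiv ℝ U z)) z :=
    (hJ1.differentiable (by simp)).differentiableAt.hasFDerivAt.comp z
      (hU.differentiable (by simp)).differentiableAt.hasFDerivAt
  have h7 := (hasFDerivAt_const cc z).clm_comp h6
  have h8 := h5.smul h7
  have h9 : (fun z => η z • cc.comp (J (U z))) = η • fun z => cc.comp (J (U z)) := rfl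
  rw [h9, h8.fderiv]
  simp [add_comm]

theorem alg_key (a b y : ℂ) (p q m n : R4) :
    ((1 / 2 : ℂ) * (a + Complex.I * b)) • ((1 / 2 : ℂ) • (cc p - Complex.I • cc q)) +
      y • ((1 / 4 : ℂ) • cc (m - n)) = (1 / 4 : ℂ) •
      (((b • cc q + y • cc m) - (a • cc (-p) + y • cc n)) +
      Complex.I • (b • cc p - a • cc q)) := by
  ext i
  simp only [Pi.add_apply, Pi.sub_apply, Pi.smul_apply, smul_eq_mul, map_neg, map_sub, Pi.neg_apply,
    cc_apply]
  ring_nf
  simp only [Complex.I_sq]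
  ring

theorem cont_VV {U : ℂ → R4} {Ω : Set ℂ} (hΩ : IsOpen Ω) (hU : ContDiffOn ℝ 1 U Ω) :
    ContinuousOn (VV U) Ω := by
  have h5 := hU.continuousOn_fderiv_of_isOpen hΩ (le_refl _)
  have h7 : ∀ w, ContinuousOn (fun z => cc (fderiv ℝ U z w)) Ω := fun w =>
    cc.continuous.comp_continuousOn (h5.clm_apply continuousOn_const)
  have h8 := h7 1
  have h9 := h7 Complex.I
  unfold VV
  fun_prop

theorem cont_FF {J : R4 → R4 →L[ℝ] R4} (hJ : ContDiff ℝ ∞ J) {U : ℂ → R4} {Ω : Set ℂ}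
    (hΩ : IsOpen Ω) (hU : ContDiffOn ℝ 1 U Ω) : ContinuousOn (FF J U) Ω := by
  have h5 := hU.continuousOn_fderiv_of_isOpen hΩ (le_refl _)
  have h6 : ContinuousOn (fun z => fderiv ℝ J (U z)) Ω :=
    (hJ.continuous_fderiv (by simp)).comp_continuousOn hU.continuousOn
  have h7 : ∀ w, ContinuousOn (fun z => fderiv ℝ U z w) Ω := fun w =>
    h5.clm_apply continuousOn_const
  have h8 := cc.continuous.comp_continuousOn
    (((h6.clm_apply (h7 Complex.I)).clm_apply (h7 1)).sub ((h6.clm_apply (h7 1)).clm_apply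
      (h7 Complex.I)))
  unfold FF
  exact ContinuousOn.const_smul h8 (1 / 4 : ℂ)

theorem weak_abs {L1 L2 : ℂ → R4 →L[ℝ] (Fin 4 → ℂ)} (c1 : ContDiff ℝ 1 L1) (c2 : ContDiff ℝ 1 L2)
    (s1 : HasCompactSupport L1) (s2 : HasCompactSupport L2)
    {U : ℂ → R4} (hU : ContDiff ℝ 1 U) (hUc : HasCompactSupport U) {X : ℂ → Fin 4 → ℂ}
    (key : ∀ z, X z = (1 / 4 : ℂ) •
      ((fderiv ℝ L2 z Complex.I (fderiv ℝ U z 1) - fderiv ℝ L2 z 1 (fderiv ℝ U z Complex.I)) +
      Complex.I • (fderiv ℝ L1 z Complex.I (fderiv ℝ U z 1) -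
      fderiv ℝ L1 z 1 (fderiv ℝ U z Complex.I)))) :
    ∫ z, X z = 0 := by
  have k1 := op_sym c1 s1 hU hUc 1 Complex.I
  have k2 := op_sym c2 s2 hU hUc 1 Complex.I
  have i1a := op_int c1 hU hUc 1 Complex.I
  have i1b := op_int c1 hU hUc Complex.I 1
  have i2a := op_int c2 hU hUc 1 Complex.I
  have i2b := op_int c2 hU hUc Complex.I 1
  have hI := integral_congr_ae (μ := (volume : Measure ℂ)) (Eventually.of_forall key)
  have i2 : Integrable (fun z => fderiv ℝ L2 z Complex.I (fderiv ℝ U z 1) -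
    fderiv ℝ L2 z 1 (fderiv ℝ U z Complex.I)) := i2a.sub i2b
  have i1 : Integrable (fun z => Complex.I • (fderiv ℝ L1 z Complex.I (fderiv ℝ U z 1) -
    fderiv ℝ L1 z 1 (fderiv ℝ U z Complex.I))) := (i1a.sub i1b).smul Complex.I
  rw [hI, integral_smul, integral_add i2 i1, integral_sub i2a i2b, integral_smul,
    integral_sub i1a i1b, k1, k2, sub_self, sub_self, smul_zero, add_zero, smul_zero]

theorem weak_key {J : R4 → R4 →L[ℝ] R4} (hJ1 : ContDiff ℝ 1 J) (hJ2 : ∀ x u, J x (J x u) = -u)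
    {U : ℂ → R4} (hU : ContDiff ℝ 1 U) {η : ℂ → ℂ} (hη1 : ContDiff ℝ 1 η)
    (hJU : ∀ z ∈ tsupport η, fderiv ℝ U z Complex.I = J (U z) (fderiv ℝ U z 1)) (z : ℂ) :
    dbar η z • VV U z + η z • FF J U z = (1 / 4 : ℂ) •
      ((fderiv ℝ (fun z => η z • cc.comp (J (U z))) z Complex.I (fderiv ℝ U z 1) -
        fderiv ℝ (fun z => η z • cc.comp (J (U z))) z 1 (fderiv ℝ U z Complex.I)) +
      Complex.I • (fderiv ℝ (fun z => η z • cc) z Complex.I (fderiv ℝ U z 1) -
      fderiv ℝ (fun z => η z • cc) z 1 (fderiv ℝ U z Complex.I))) := by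
  rw [fderiv_L1 hη1, fderiv_L1 hη1, fderiv_L2 hη1 hJ1 hU, fderiv_L2 hη1 hJ1 hU]
  by_cases hz : z ∈ tsupport η
  · have h6 := hJU z hz
    have h7 : J (U z) (fderiv ℝ U z Complex.I) = - fderiv ℝ U z 1 := by
      rw [h6, hJ2]
    rw [h7, ← h6]
    exact alg_key _ _ _ _ _ _ _
  · have h5 : η =ᶠ[𝓝 z] fun _ => 0 := by
      filter_upwards [(isClosed_tsupport η).isOpen_compl.mem_nhds hz] with y hy
      exact image_eq_zero_of_notMem_tsupport hy
    have h6 : fderiv ℝ η z = 0 := by rw [h5.fderiv_eq]; simp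
    have h7 : η z = 0 := h5.self_of_nhds
    have h8 : dbar η z = 0 := by unfold dbar; rw [h6]; simp
    rw [h8, h7, h6]
    simp

/-- global form, equation on the support of the test function -/
theorem weak_glob {J : R4 → R4 →L[ℝ] R4} (hJ : ContDiff ℝ ∞ J) (hJ2 : ∀ x u, J x (J x u) = -u)
    {U : ℂ → R4} (hU : ContDiff ℝ 1 U) (hUc : HasCompactSupport U) {η : ℂ → ℂ}
    (hη1 : ContDiff ℝ 1 η) (hηc : HasCompactSupport η)
    (hJU : ∀ z ∈ tsupport η, fderiv ℝ U z Complex.I = J (U z) (fderiv ℝ U z 1)) :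
    ∫ z, (dbar η z • VV U z + η z • FF J U z) = 0 := by
  have hJ1 : ContDiff ℝ 1 J := hJ.of_le (by simp)
  have hJU' : ContDiff ℝ 1 fun z => cc.comp (J (U z)) :=
    contDiff_const.clm_comp (hJ1.comp hU)
  have c1 : ContDiff ℝ 1 fun z => η z • cc := hη1.smul contDiff_const
  have c2 : ContDiff ℝ 1 fun z => η z • cc.comp (J (U z)) := hη1.smul hJU'
  have s1 : HasCompactSupport fun z => η z • cc := HasCompactSupport.intro hηc fun z hz => by
    rw [image_eq_zero_of_notMem_tsupport hz]; ext v i; simp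
  have s2 : HasCompactSupport fun z => η z • cc.comp (J (U z)) :=
    HasCompactSupport.intro hηc fun z hz => by
      rw [image_eq_zero_of_notMem_tsupport hz]; ext v i; simp
  exact weak_abs c1 c2 s1 s2 hU hUc (weak_key hJ1 hJ2 hU hη1 hJU)

/-- **the weak equation** -/
theorem wdb_VV {J : R4 → R4 →L[ℝ] R4} (hJ : ContDiff ℝ ∞ J) (hJ2 : ∀ x u, J x (J x u) = -u)
    {U : ℂ → R4} {Ω : Set ℂ} (hΩ : IsOpen Ω) (hU : ContDiffOn ℝ 1 U Ω)
    (hJU : ∀ z ∈ Ω, fderiv ℝ U z Complex.I = J (U z) (fderiv ℝ U z 1)) :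
    WDb Ω (VV U) (FF J U) := by
  intro η hη hηc hηs
  obtain ⟨χ, h1, h2, h3, h4, -⟩ := exists_cut (K := tsupport η) hηc hΩ hηs
  set U' : ℂ → R4 := fun z => χ z • U z with hU'
  have hU'1 : ContDiff ℝ 1 U' := contDiff_cut_mul hΩ h1 h3 (n := 1) (by exact_mod_cast hU)
  have hU'c : HasCompactSupport U' := h2.smul_right
  have heq : ∀ z ∈ tsupport η, U' =ᶠ[𝓝 z] U := by
    intro z hz
    filter_upwards [h4 z hz] with y hy
    rw [hU']; simp only; rw [hy, one_smul]
  have h5 := weak_glob hJ hJ2 hU'1 hU'c (hη.of_le (by simp)) hηc fun z hz => by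
    rw [(heq z hz).fderiv_eq, (heq z hz).self_of_nhds]
    exact hJU z (hηs hz)
  have h6 : ∀ z, dbar η z • VV U' z + η z • FF J U' z = dbar η z • VV U z + η z • FF J U z := by
    intro z
    by_cases hz : z ∈ tsupport η
    · rw [VV_congr (heq z hz), FF_congr (heq z hz)]
    · rw [image_eq_zero_of_notMem_tsupport hz,
        image_eq_zero_of_notMem_tsupport (fun h => hz (tsupport_dbar η h))]
      simp
  simp only [h6] at h5
  rw [integral_add (integrable_smul_of_tsupport hΩ (contDiff_dbar hη).continuous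
    (hasCompactSupport_dbar hηc) (cont_VV hΩ hU) ((tsupport_dbar η).trans hηs))
    (integrable_smul_of_tsupport hΩ hη.continuous hηc (cont_FF hJ hΩ hU) hηs)] at h5
  exact eq_neg_of_add_eq_zero_left h5

end

end Vale.Agent.P247.H734
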